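import Vale.Agent.P027.H833.Chain

set_option linter.all false

/-! Boolean formulas over literals `(variable, value)`: a small toolkit with sizes. -/

namespace Vale.Agent.P027.N

/-- Boolean formulas -/
abbrev BF (V : Type) : Type := Fm (V × Bool)

/-- truth -/
def evB {V : Type} (e : V → Bool) (f : BF V) : Prop := f.holds (fun u => e u.1 = u.2)

variable {V : Type}

@[simp] lemma evB_lit (e : V → Bool) (v : V) (t : Bool) : evB e (.lit (v, t)) ↔ e v = t := Iff.rfl

@[simp] lemma evB_and (e : V → Bool) (f g : BF V) : evB e (.and f g) ↔ evB e f ∧ evB e g := Iff.rfl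

@[simp] lemma evB_or (e : V → Bool) (f g : BF V) : evB e (.or f g) ↔ evB e f ∨ evB e g := Iff.rfl

/-- negation -/
def bNeg : BF V → BF V
  | .lit u => .lit (u.1, !u.2)
  | .and f g => .or (bNeg f) (bNeg g)
  | .or f g => .and (bNeg f) (bNeg g)

@[simp] lemma evB_neg (e : V → Bool) (f : BF V) : evB e (bNeg f) ↔ ¬ evB e f := by
  induction f with
  | lit u =>
    obtain ⟨v, t⟩ := u
    simp only [bNeg, evB_lit]
    cases t <;> cases e v <;> simp
  | and f g hf hg => simp only [bNeg, evB_or, evB_and, hf, hg]; tauto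
  | or f g hf hg => simp only [bNeg, evB_or, evB_and, hf, hg]; tauto

@[simp] lemma size_neg (f : BF V) : (bNeg f).size = f.size := by
  induction f with
  | lit u => rfl
  | and f g hf hg => simp [bNeg, Fm.size, hf, hg]
  | or f g hf hg => simp [bNeg, Fm.size, hf, hg]

/-- implication -/
def bImp (f g : BF V) : BF V := .or (bNeg f) g

@[simp] lemma evB_imp (e : V → Bool) (f g : BF V) : evB e (bImp f g) ↔ (evB e f → evB e g) := by
  simp only [bImp, evB_or, evB_neg]; tauto

@[simp] lemma size_imp (f g : BF V) : (bImp f g).size = f.size + g.size + 1 := by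
  simp [bImp, Fm.size]

/-- truth; `v` is any variable -/
def bT (v : V) : BF V := .or (.lit (v, true)) (.lit (v, false))

/-- falsity -/
def bF (v : V) : BF V := .and (.lit (v, true)) (.lit (v, false))

@[simp] lemma evB_T (e : V → Bool) (v : V) : evB e (bT v) ↔ True := by
  simp only [bT, evB_or, evB_lit]; cases e v <;> simp

@[simp] lemma evB_F (e : V → Bool) (v : V) : evB e (bF v) ↔ False := by
  simp only [bF, evB_and, evB_lit]; cases e v <;> simp

@[simp] lemma size_T (v : V) : (bT v).size = 3 := rfl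

@[simp] lemma size_F (v : V) : (bF v).size = 3 := rfl

/-- conjunction of a list -/
def bAnd (v : V) (l : List (BF V)) : BF V := l.foldr Fm.and (bT v)

lemma evB_bAnd (e : V → Bool) (v : V) (l : List (BF V)) :
    evB e (bAnd v l) ↔ ∀ f ∈ l, evB e f := by
  induction l with
  | nil => simp [bAnd]
  | cons f l ih =>
    simp only [bAnd, List.foldr_cons, evB_and, List.forall_mem_cons]
    exact and_congr Iff.rfl ih

lemma size_bAnd_le (v : V) (l : List (BF V)) (c : ℕ) (h : ∀ f ∈ l, f.size ≤ c) :
    (bAnd v l).size ≤ l.length * (c + 1) + 3 := by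
  induction l with
  | nil => simp [bAnd]
  | cons f l ih =>
    have h1 := ih (fun g hg => h g (List.mem_cons_of_mem _ hg))
    have h2 := h f List.mem_cons_self
    have h3 : (bAnd v (f :: l)).size = f.size + (bAnd v l).size + 1 := rfl
    rw [h3, List.length_cons, Nat.succ_mul]
    omega

/-- disjunction of a list -/
def bOr (v : V) (l : List (BF V)) : BF V := l.foldr Fm.or (bF v)

lemma evB_bOr (e : V → Bool) (v : V) (l : List (BF V)) :
    evB e (bOr v l) ↔ ∃ f ∈ l, evB e f := by
  induction l with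
  | nil => simp [bOr]
  | cons f l ih =>
    simp only [bOr, List.foldr_cons, evB_or, List.mem_cons, exists_eq_or_imp]
    exact or_congr Iff.rfl ih

/-- every predicate on finitely many bits is given by a formula -/
theorem exists_bf [Finite V] [Nonempty V] (R : (V → Bool) → Prop) :
    ∃ f : BF V, ∀ e, evB e f ↔ R e := by
  classical
  haveI := Fintype.ofFinite V
  obtain ⟨v⟩ := ‹Nonempty V›
  refine ⟨bOr v (((Finset.univ.filter R).toList).map fun e0 =>
    bAnd v ((Finset.univ : Finset V).toList.map fun w => .lit (w, e0 w))), fun e => ?_⟩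
  rw [evB_bOr]
  constructor
  · rintro ⟨f, hf, h⟩
    obtain ⟨e0, he0, rfl⟩ := List.mem_map.1 hf
    rw [evB_bAnd] at h
    have h1 : e = e0 := by
      funext w
      have := h _ (List.mem_map.2 ⟨w, by simp, rfl⟩)
      simpa using this
    rw [Finset.mem_toList, Finset.mem_filter] at he0
    rw [h1]
    exact he0.2
  · intro h
    refine ⟨_, List.mem_map.2 ⟨e, by simp [h], rfl⟩, ?_⟩
    rw [evB_bAnd]
    intro f hf
    obtain ⟨w, -, rfl⟩ := List.mem_map.1 hf
    simp

/-! ### Binary numbers -/

/-- the number given by bits, lowest bit first -/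
def bv : (m : ℕ) → (Fin m → Bool) → ℕ
  | 0, _ => 0
  | m + 1, u => (u 0).toNat + 2 * bv m (fun j => u j.succ)

/-- the bits of a number -/
def bi : (m : ℕ) → ℕ → (Fin m → Bool)
  | 0, _ => Fin.elim0
  | m + 1, s => Fin.cons (decide (s % 2 = 1)) (bi m (s / 2))

lemma bv_lt : ∀ (m : ℕ) (u : Fin m → Bool), bv m u < 2 ^ m
  | 0, _ => by simp [bv]
  | m + 1, u => by
    have := bv_lt m (fun j => u j.succ)
    have h2 : (u 0).toNat ≤ 1 := Bool.toNat_le _
    simp only [bv, pow_succ]
    omega

lemma bv_bi : ∀ (m s : ℕ), s < 2 ^ m → bv m (bi m s) = s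
  | 0, s, h => by simp [bv] at *; omega
  | m + 1, s, h => by
    have h1 : s / 2 < 2 ^ m := by
      rw [pow_succ] at h
      omega
    simp only [bv, bi, Fin.cons_zero, Fin.cons_succ]
    rw [bv_bi m (s / 2) h1]
    by_cases h2 : s % 2 = 1
    · simp only [h2, decide_true, Bool.toNat_true]; omega
    · simp only [h2, decide_false, Bool.toNat_false]; omega

lemma bi_bv : ∀ (m : ℕ) (u : Fin m → Bool), bi m (bv m u) = u
  | 0, u => by funext j; exact j.elim0
  | m + 1, u => by
    have h1 : ((u 0).toNat + 2 * bv m (fun j => u j.succ)) / 2 = bv m (fun j => u j.succ) := by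
      have h2 : (u 0).toNat ≤ 1 := Bool.toNat_le _
      omega
    simp only [bv, bi, h1]
    rw [bi_bv m (fun j => u j.succ)]
    funext j
    refine Fin.cases ?_ (fun i => ?_) j
    · have h3 : ∀ (t : Bool) (k : ℕ), decide ((t.toNat + 2 * k) % 2 = 1) = t := by
        intro t k; cases t <;> simp <;> omega
      simp only [Fin.cons_zero]
      exact h3 _ _
    · simp only [Fin.cons_succ]

lemma bv_inj {m : ℕ} {u u' : Fin m → Bool} (h : bv m u = bv m u') : u = u' := by
  rw [← bi_bv m u, ← bi_bv m u', h]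

/-- equality of two bit vectors -/
def eqF (v : V) : (m : ℕ) → (Fin m → V) → (Fin m → V) → BF V
  | 0, _, _ => bT v
  | m + 1, i, i' => .and (.or (.and (.lit (i 0, true)) (.lit (i' 0, true)))
      (.and (.lit (i 0, false)) (.lit (i' 0, false))))
      (eqF v m (fun j => i j.succ) (fun j => i' j.succ))

lemma evB_eqF (e : V → Bool) (v : V) : ∀ (m : ℕ) (i i' : Fin m → V),
    evB e (eqF v m i i') ↔ bv m (fun j => e (i j)) = bv m (fun j => e (i' j))
  | 0, _, _ => by simp [eqF, bv]
  | m + 1, i, i' => by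
    simp only [eqF, evB_and, evB_or, evB_lit, evB_eqF e v m, bv]
    cases e (i 0) <;> cases e (i' 0) <;> simp <;> omega

lemma size_eqF (v : V) : ∀ (m : ℕ) (i i' : Fin m → V), (eqF v m i i').size = 8 * m + 3
  | 0, _, _ => by simp [eqF]
  | m + 1, i, i' => by simp only [eqF, Fm.size, size_eqF v m]; omega

/-- successor -/
def sucF (v : V) : (m : ℕ) → (Fin m → V) → (Fin m → V) → BF V
  | 0, _, _ => bF v
  | m + 1, i, i' => .or
      (.and (.lit (i 0, false)) (.and (.lit (i' 0, true))
        (eqF v m (fun j => i j.succ) (fun j => i' j.succ))))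
      (.and (.lit (i 0, true)) (.and (.lit (i' 0, false))
        (sucF v m (fun j => i j.succ) (fun j => i' j.succ))))

lemma evB_sucF (e : V → Bool) (v : V) : ∀ (m : ℕ) (i i' : Fin m → V),
    evB e (sucF v m i i') ↔ bv m (fun j => e (i' j)) = bv m (fun j => e (i j)) + 1
  | 0, _, _ => by simp [sucF, bv]
  | m + 1, i, i' => by
    simp only [sucF, evB_and, evB_or, evB_lit, evB_eqF e v m, evB_sucF e v m, bv]
    cases e (i 0) <;> cases e (i' 0) <;> simp <;> omega

lemma size_sucF (v : V) : ∀ (m : ℕ) (i i' : Fin m → V),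
    (sucF v m i i').size = 4 * m ^ 2 + 8 * m + 3
  | 0, _, _ => by simp [sucF]
  | m + 1, i, i' => by simp only [sucF, Fm.size, size_sucF v m, size_eqF v m]; ring

/-- equality with a constant -/
def conF (v : V) : (m : ℕ) → (Fin m → V) → ℕ → BF V
  | 0, _, _ => bT v
  | m + 1, i, s => .and (.lit (i 0, decide (s % 2 = 1))) (conF v m (fun j => i j.succ) (s / 2))

lemma evB_conF (e : V → Bool) (v : V) : ∀ (m : ℕ) (i : Fin m → V) (s : ℕ), s < 2 ^ m →
    (evB e (conF v m i s) ↔ bv m (fun j => e (i j)) = s)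
  | 0, _, s, h => by simp [conF, bv] at *; omega
  | m + 1, i, s, h => by
    have h1 : s / 2 < 2 ^ m := by
      rw [pow_succ] at h
      omega
    simp only [conF, evB_and, evB_lit, evB_conF e v m _ _ h1, bv]
    by_cases h2 : s % 2 = 1
    · cases e (i 0) <;> simp [h2] <;> omega
    · cases e (i 0) <;> simp [h2] <;> omega

lemma size_conF (v : V) : ∀ (m : ℕ) (i : Fin m → V) (s : ℕ), (conF v m i s).size = 2 * m + 3
  | 0, _, _ => by simp [conF]
  | m + 1, i, s => by simp only [conF, Fm.size, size_conF v m]; omega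

lemma evB_map {W : Type} (f : V → W) (e : W → Bool) (g : BF V) :
    evB e (g.map fun u => (f u.1, u.2)) ↔ evB (fun v => e (f v)) g := by
  simp only [evB, Fm.holds_map]

end Vale.Agent.P027.N
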