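import Mathlib

set_option linter.all false

/-! Binary numbers given by functions on the natural numbers. -/

namespace Vale.Agent.P027.N

/-- the number with the binary digits `u 0, ..., u (m - 1)` -/
def bvN : ℕ → (ℕ → Bool) → ℕ
  | 0, _ => 0
  | m + 1, u => (u 0).toNat + 2 * bvN m (fun j => u (j + 1))

lemma bvN_lt : ∀ (m : ℕ) (u : ℕ → Bool), bvN m u < 2 ^ m
  | 0, _ => by simp [bvN]
  | m + 1, u => by
    have := bvN_lt m (fun j => u (j + 1))
    have h2 : (u 0).toNat ≤ 1 := Bool.toNat_le _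
    simp only [bvN, pow_succ]
    omega

lemma bvN_testBit : ∀ (m : ℕ) (u : ℕ → Bool) (j : ℕ), j < m → (bvN m u).testBit j = u j
  | 0, _, j, h => absurd h (Nat.not_lt_zero j)
  | m + 1, u, 0, _ => by
    simp only [bvN, Nat.testBit_zero]
    cases u 0 <;> simp <;> omega
  | m + 1, u, j + 1, h => by
    have h1 : ((u 0).toNat + 2 * bvN m (fun j => u (j + 1))) / 2 = bvN m (fun j => u (j + 1)) := by
      have h2 : (u 0).toNat ≤ 1 := Bool.toNat_le _
      omega
    simp only [bvN, Nat.testBit_succ, h1]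
    exact bvN_testBit m (fun j => u (j + 1)) j (by omega)

lemma bvN_eq_iff {m : ℕ} {u : ℕ → Bool} {s : ℕ} (hs : s < 2 ^ m) :
    bvN m u = s ↔ ∀ j < m, u j = s.testBit j := by
  constructor
  · rintro rfl j hj
    rw [bvN_testBit m u j hj]
  · intro h
    refine Nat.eq_of_testBit_eq fun j => ?_
    rcases Nat.lt_or_ge j m with hj | hj
    · rw [bvN_testBit m u j hj, h j hj]
    · rw [Nat.testBit_lt_two_pow ((bvN_lt m u).trans_le (Nat.pow_le_pow_right (by norm_num) hj)),
        Nat.testBit_lt_two_pow (hs.trans_le (Nat.pow_le_pow_right (by norm_num) hj))]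

lemma bvN_inj {m : ℕ} {u u' : ℕ → Bool} : bvN m u = bvN m u' ↔ ∀ j < m, u j = u' j := by
  rw [bvN_eq_iff (bvN_lt m u')]
  exact forall₂_congr fun j hj => by rw [bvN_testBit m u' j hj]

/-- successor in terms of digits -/
lemma bvN_succ : ∀ (m : ℕ) (u u' : ℕ → Bool), bvN m u' = bvN m u + 1 ↔
    ∃ j < m, u j = false ∧ u' j = true ∧
      ∀ i < m, (i < j → u i = true ∧ u' i = false) ∧ (j < i → u i = u' i)
  | 0, _, _ => by simp [bvN]
  | m + 1, u, u' => by
    have ih := bvN_succ m (fun j => u (j + 1)) (fun j => u' (j + 1))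
    have hinj := bvN_inj (m := m) (u := fun j => u (j + 1)) (u' := fun j => u' (j + 1))
    have e1 : bvN (m + 1) u' = bvN (m + 1) u + 1 ↔
        (u 0 = false ∧ u' 0 = true ∧ bvN m (fun j => u (j + 1)) = bvN m (fun j => u' (j + 1))) ∨
        (u 0 = true ∧ u' 0 = false ∧
          bvN m (fun j => u' (j + 1)) = bvN m (fun j => u (j + 1)) + 1) := by
      simp only [bvN]
      cases u 0 <;> cases u' 0 <;> simp <;> omega
    rw [e1, hinj, ih]
    constructor
    · rintro (⟨h1, h2, h3⟩ | ⟨h1, h2, j, hj, h3, h4, h5⟩)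
      · refine ⟨0, by omega, h1, h2, fun i hi => ⟨fun h => absurd h (Nat.not_lt_zero i), ?_⟩⟩
        intro h
        obtain ⟨i, rfl⟩ := Nat.exists_eq_succ_of_ne_zero (show i ≠ 0 by omega)
        exact h3 i (by omega)
      · refine ⟨j + 1, by omega, h3, h4, fun i hi => ?_⟩
        rcases Nat.eq_zero_or_pos i with rfl | h0
        · exact ⟨fun _ => ⟨h1, h2⟩, fun h => absurd h (Nat.not_lt_zero _)⟩
        · obtain ⟨i, rfl⟩ := Nat.exists_eq_succ_of_ne_zero (show i ≠ 0 by omega)
          have := h5 i (by omega)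
          exact ⟨fun h => this.1 (by omega), fun h => this.2 (by omega)⟩
    · rintro ⟨j, hj, h1, h2, h3⟩
      rcases Nat.eq_zero_or_pos j with rfl | h0
      · exact Or.inl ⟨h1, h2, fun i hi => (h3 (i + 1) (by omega)).2 (by omega)⟩
      · obtain ⟨j, rfl⟩ := Nat.exists_eq_succ_of_ne_zero (show j ≠ 0 by omega)
        have h4 := (h3 0 (by omega)).1 (by omega)
        refine Or.inr ⟨h4.1, h4.2, j, by omega, h1, h2, fun i hi => ?_⟩
        have := h3 (i + 1) (by omega)
        exact ⟨fun h => this.1 (by omega), fun h => this.2 (by omega)⟩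

end Vale.Agent.P027.N
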