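import Vale.Agent.P027.N.Defs

set_option linter.all false

/-! The chain of steps that expresses an oracle problem (module N6, definitions). -/

namespace Vale.Agent.P027.N

open Vale.Agent.P027 Vale.Agent.P027.Q

/-! ### Formulas -/

/-- renaming of literals -/
def Fm.map {α β : Type} (f : α → β) : Fm α → Fm β
  | .lit a => .lit (f a)
  | .and g h => .and (g.map f) (h.map f)
  | .or g h => .or (g.map f) (h.map f)

@[simp] lemma Fm.holds_lit {α : Type} (P : α → Prop) (a : α) : (Fm.lit a).holds P ↔ P a := Iff.rfl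

@[simp] lemma Fm.holds_and {α : Type} (P : α → Prop) (f g : Fm α) :
    (Fm.and f g).holds P ↔ f.holds P ∧ g.holds P := Iff.rfl

@[simp] lemma Fm.holds_or {α : Type} (P : α → Prop) (f g : Fm α) :
    (Fm.or f g).holds P ↔ f.holds P ∨ g.holds P := Iff.rfl

@[simp] lemma Fm.holds_map {α β : Type} (f : α → β) (P : β → Prop) (g : Fm α) :
    (g.map f).holds P ↔ g.holds (fun a => P (f a)) := by
  induction g with
  | lit a => rfl
  | and g h ihg ihh => simp [Fm.map, ihg, ihh]
  | or g h ihg ihh => simp [Fm.map, ihg, ihh]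

@[simp] lemma Fm.size_map {α β : Type} (f : α → β) (g : Fm α) : (g.map f).size = g.size := by
  induction g with
  | lit a => rfl
  | and g h ihg ihh => simp [Fm.map, Fm.size, ihg, ihh]
  | or g h ihg ihh => simp [Fm.map, Fm.size, ihg, ihh]

lemma Fm.holds_mono' {α : Type} {P R : α → Prop} (h : ∀ a, P a → R a) (g : Fm α) :
    g.holds P → g.holds R := by
  induction g with
  | lit a => exact h a
  | and g h ihg ihh => exact fun x => ⟨ihg x.1, ihh x.2⟩
  | or g h ihg ihh => exact fun x => x.imp ihg ihh

/-- disjunction of a list of formulas over literals; `i` is any index -/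
def lOr {I J π : Type} (i : I) (l : List (Fm (Lit I J π))) : Fm (Lit I J π) :=
  l.foldr Fm.or (.and (.lit (.rd i)) (.lit (.nrd i)))

/-- conjunction of a list of formulas over literals; `i` is any index -/
def lAnd {I J π : Type} (i : I) (l : List (Fm (Lit I J π))) : Fm (Lit I J π) :=
  l.foldr Fm.and (.or (.lit (.rd i)) (.lit (.nrd i)))

lemma holds_lOr {I J π : Type} (i : I) (l : List (Fm (Lit I J π))) (β : I → Prop) (bit : J → Prop)
    (z : π → ℚ) : (lOr i l).holds (litP β bit z) ↔ ∃ f ∈ l, f.holds (litP β bit z) := by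
  induction l with
  | nil => simp [lOr, litP]
  | cons f l ih => simp only [lOr, List.foldr_cons, Fm.holds_or, List.mem_cons, exists_eq_or_imp]
                   exact or_congr Iff.rfl ih

lemma holds_lAnd {I J π : Type} (i : I) (l : List (Fm (Lit I J π))) (β : I → Prop)
    (bit : J → Prop) (z : π → ℚ) :
    (lAnd i l).holds (litP β bit z) ↔ ∀ f ∈ l, f.holds (litP β bit z) := by
  induction l with
  | nil => simp [lAnd, litP, em]
  | cons f l ih => simp only [lAnd, List.foldr_cons, Fm.holds_and, List.forall_mem_cons]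
                   exact and_congr Iff.rfl ih

/-! ### The oracle problem -/

/-- variables of the query formula: input bits, bits of the two names, bits of the two answers -/
inductive Vr (p n k : ℕ) : Type
  | x (i : Fin p) : Vr p n k
  | b (t : Bool) (j : Fin n) : Vr p n k
  | a (t : Bool) (c : Fin k) : Vr p n k

/-- the value of a variable -/
def Vr.ev {p n k : ℕ} (x : Fin p → Bool) (b : Bool → Fin n → Bool) (a : Bool → Fin k → Bool) :
    Vr p n k → Bool
  | .x i => x i
  | .b t j => b t j
  | .a t c => a t c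

/-- the oracle problem: there is a function `A` such that `ψ` holds for all pairs of names -/
def Orc {p n k : ℕ} (ψ : Fm (Vr p n k × Bool)) (x : Fin p → Bool) : Prop :=
  ∃ A : (Fin n → Bool) → (Fin k → Bool), ∀ b : Bool → Fin n → Bool,
    ψ.holds (fun u => Vr.ev x b (fun t => A (b t)) u.1 = u.2)

/-! ### Index types -/

/-- letters: type, value, position -/
abbrev Ltr (n : ℕ) : Type := Bool × Bool × Fin n

/-- numbering of the letters -/
def eL (n : ℕ) : Ltr n ≃ Fin (2 * (2 * n)) :=
  (Equiv.prodCongr finTwoEquiv.symm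
    ((Equiv.prodCongr finTwoEquiv.symm (Equiv.refl (Fin n))).trans finProdFinEquiv)).trans
    finProdFinEquiv

/-- indices of the levels: `inl false` = reference, `inl true` = top, letters -/
abbrev Ia (n : ℕ) : Type := Bool ⊕ Ltr n

/-- indices of the colour level: level indices, colours -/
abbrev Ic (n k : ℕ) : Type := Ia n ⊕ Ltr k

/-- base indices -/
abbrev Ib (n : ℕ) : Type := Fin (2 * (2 * n) + 1)

/-! ### Constraints -/

section constraints

variable {π : Type} {n k : ℕ}

/-- base: the constraint for a letter -/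
def gIn {J : Type} (a : Ltr n) : Fm (Lit (Ib n) J π) :=
  .and (.lit (.rd (eL n a).succ)) (.lit (.nrd (eL n a).castSucc))

/-- base: negation -/
def gNin {J : Type} (a : Ltr n) : Fm (Lit (Ib n) J π) :=
  .or (.lit (.nrd (eL n a).succ)) (.lit (.rd (eL n a).castSucc))

/-- constraints of the step from the base to the first level -/
def G0 : Option (Ltr n) → Fm (Lit (Ib n) (Ia n) π)
  | none => .lit (.one (.inl true))
  | some a => .or (.and (.lit (.one (.inr a))) (gNin a)) (.and (.lit (.zero (.inr a))) (gIn a))

/-- copying the letters -/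
def gCp {I J : Type} (i : Ltr n → I) (j : Ltr n → J) (top : J) :
    Option (Ltr n) → Fm (Lit I J π)
  | none => .lit (.one top)
  | some a => .or (.and (.lit (.one (j a))) (.lit (.rd (i a))))
      (.and (.lit (.zero (j a))) (.lit (.nrd (i a))))

/-- constraints of the steps between levels -/
def G1 : Option (Ltr n) → Fm (Lit (Ia n) (Ia n) π) := gCp Sum.inr Sum.inr (.inl true)

/-- the unread letters of type `t` are not a name -/
def gNv {I J : Type} (i : Ltr n → I) (i0 : I) (t : Bool) : Fm (Lit I J π) :=
  lOr i0 ((List.finRange n).map fun j =>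
    .or (.and (.lit (.nrd (i (t, false, j)))) (.lit (.nrd (i (t, true, j)))))
      (.and (.lit (.rd (i (t, false, j)))) (.lit (.rd (i (t, true, j))))))

/-- constraints of the step to the colour level -/
def G2 : Option (Ltr n) ⊕ (Bool × Fin k) → Fm (Lit (Ia n) (Ic n k) π)
  | .inl o => gCp Sum.inr (fun a => Sum.inl (Sum.inr a)) (.inl (.inl true)) o
  | .inr (t, c) => .or (gNv Sum.inr (.inl true) t)
      (.or (.lit (.zero (.inr (t, false, c)))) (.lit (.zero (.inr (t, true, c)))))

/-- translation of a literal of the query formula -/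
def trL {J : Type} {p : ℕ} : Vr p n k × Bool → Lit (Ic n k) J (Fin p)
  | (.x i, true) => .par i
  | (.x i, false) => .npar i
  | (.b t j, v) => .rd (.inl (.inr (t, !v, j)))
  | (.a t c, v) => .rd (.inr (t, !v, c))

/-- the two names are different -/
def gNe {J : Type} : Fm (Lit (Ic n k) J π) :=
  lOr (.inl (.inl true)) ((List.finRange n).map fun j =>
    .or (.and (.lit (.rd (.inl (.inr (false, true, j))))) (.lit (.rd (.inl (.inr (true, false, j))))))
      (.and (.lit (.rd (.inl (.inr (false, false, j)))))
        (.lit (.rd (.inl (.inr (true, true, j)))))))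

/-- the two colours are equal -/
def gEq {J : Type} : Fm (Lit (Ic n k) J π) :=
  lAnd (.inl (.inl true)) ((List.finRange k).map fun c =>
    .or (.and (.lit (.rd (.inr (false, false, c)))) (.lit (.rd (.inr (true, false, c)))))
      (.and (.lit (.rd (.inr (false, true, c)))) (.lit (.rd (.inr (true, true, c))))))

/-- the final check -/
def G3 {p : ℕ} (ψ : Fm (Vr p n k × Bool)) : Unit → Fm (Lit (Ic n k) Unit (Fin p)) := fun _ =>
  .or (gNv (fun a => Sum.inl (Sum.inr a)) (.inl (.inl true)) false)
    (.or (gNv (fun a => Sum.inl (Sum.inr a)) (.inl (.inl true)) true)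
      (.and (ψ.map trL) (.or gNe gEq)))

end constraints

/-! ### The system -/

/-- values of the level `l + 1` -/
def Lvl {π : Type} (n : ℕ) (z : π → ℚ) : ℕ → (Ia n → ℚ) → Prop
  | 0, s => ∃ s0 : Ib n → ℚ, Bas (2 * (2 * n)) s0 ∧ Stp (Sum.inl false) G0 z s0 s
  | l + 1, s => ∃ s' : Ia n → ℚ, Lvl n z l s' ∧ Stp (Sum.inl false) G1 z s' s

/-- the whole system, for names of length `2 ^ (L + 1)` -/
def Sys {p k : ℕ} (L : ℕ) (ψ : Fm (Vr p (2 ^ (L + 1)) k × Bool)) (z : Fin p → ℚ) : Prop :=
  ∃ s : Ia (2 ^ (L + 1)) → ℚ, Lvl (2 ^ (L + 1)) z L s ∧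
    ∃ s' : Ic (2 ^ (L + 1)) k → ℚ, Stp (Sum.inl (Sum.inl false)) G2 z s s' ∧
      ∃ s'' : Unit → ℚ, Stp () (G3 ψ) z s' s''

/-- the rational vector of a Boolean vector -/
def zq {p : ℕ} (x : Fin p → Bool) : Fin p → ℚ := fun i => if x i then 1 else 0

lemma zq_or {p : ℕ} (x : Fin p → Bool) (i : Fin p) : zq x i = 0 ∨ zq x i = 1 := by
  unfold zq; split_ifs <;> simp

end Vale.Agent.P027.N
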