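import Vale.Agent.P027.H833.Snd

set_option linter.all false

/-! Completeness of the chain (module N6). -/

namespace Vale.Agent.P027.N

open Vale.Agent.P027 Vale.Agent.P027.Q

/-- strategy of the first step -/
def tau0 {n : ℕ} (β : Ib n → Prop) : Ia n → Prop
  | .inl b => b = true
  | .inr a => ¬ (β (eL n a).succ ∧ ¬ β (eL n a).castSucc)

/-- strategy of the steps between levels -/
def tau1 {n : ℕ} (β : Ia n → Prop) : Ia n → Prop
  | .inl b => b = true
  | .inr a => β (.inr a)

/-- the unread letters of type `t` form a name -/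
def vld {n : ℕ} (t : Bool) (β : Ia n → Prop) : Prop :=
  ∀ j, ¬ (β (.inr (t, false, j)) ↔ β (.inr (t, true, j)))

open Classical in
/-- the name given by the unread letters of type `t` -/
noncomputable def nam {n : ℕ} (t : Bool) (β : Ia n → Prop) : Fin n → Bool :=
  fun j => decide (¬ β (.inr (t, true, j)))

/-- strategy of the step to the colour level -/
def tau2 {n k : ℕ} (A : (Fin n → Bool) → Fin k → Bool) (β : Ia n → Prop) : Ic n k → Prop
  | .inl (.inl b) => b = true
  | .inl (.inr a) => β (.inr a)
  | .inr (t, v, c) => ¬ (vld t β ∧ A (nam t β) c = v)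

lemma nam_unread {n : ℕ} {t : Bool} {β : Ia n → Prop} (h : vld t β) (j : Fin n) :
    ¬ β (.inr (t, nam t β j, j)) := by
  have := h j
  by_cases h1 : β (.inr (t, true, j))
  · have h2 : nam t β j = false := by simp [nam, h1]
    rw [h2]
    intro h3
    exact this ⟨fun _ => h1, fun _ => h3⟩
  · have h2 : nam t β j = true := by simp [nam, h1]
    rw [h2]
    exact h1

/-- completeness of the levels -/
theorem lvl_complete (hC : StStepComplete) (hB1 : StBasSound) (hB2 : StBasExists)
    (hB4 : StBasHon) {n : ℕ} {π : Type} (z : π → ℚ) (hz : ∀ x, z x = 0 ∨ z x = 1) (l : ℕ) :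
    ∃ s : Ia n → ℚ, Lvl n z l s ∧ ∃ (m : Ia n → ℤ) (A : (Ia n → Prop) → Prop),
      (∀ k, Ix (m k) (s k)) ∧ Hon m A := by
  induction l with
  | zero =>
    obtain ⟨s0, hs0⟩ := hB2 (2 * (2 * n))
    obtain ⟨m', s', hI, hst, hh⟩ := hC (Ib n) (Ia n) (Option (Ltr n)) π (Sum.inl false) G0 z
      (fun i => 3 ^ (i : ℕ) * 5) s0 _ tau0 (hB1 _ s0 hs0) hz (hB4 (2 * (2 * n))) (by
        intro β _
        refine ⟨fun o => ?_, by simp [tau0]⟩
        cases o with
        | none => simp [G0, litP, tau0]
        | some a =>
          simp only [G0, gIn, gNin, Fm.holds_or, Fm.holds_and, Fm.holds_lit, litP, tau0]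
          tauto)
    exact ⟨s', ⟨s0, hs0, hst⟩, m', _, hI, hh⟩
  | succ l ih =>
    obtain ⟨s, hs, m, A, hI, hh⟩ := ih
    obtain ⟨m', s', hI', hst, hh'⟩ := hC (Ia n) (Ia n) (Option (Ltr n)) π (Sum.inl false) G1 z
      m s A tau1 hI hz hh (by
        intro β _
        refine ⟨fun o => ?_, by simp [tau1]⟩
        cases o with
        | none => simp [G1, gCp, litP, tau1]
        | some a =>
          simp only [G1, gCp, Fm.holds_or, Fm.holds_and, Fm.holds_lit, litP, tau1]
          tauto)
    exact ⟨s', ⟨s, hs, hst⟩, m', _, hI', hh'⟩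

/-- completeness of the chain -/
theorem chain_complete (hC : StStepComplete) (hB1 : StBasSound) (hB2 : StBasExists)
    (hB4 : StBasHon) {p k L : ℕ} (ψ : Fm (Vr p (2 ^ (L + 1)) k × Bool)) (x : Fin p → Bool)
    (h : Orc ψ x) : Sys L ψ (zq x) := by
  obtain ⟨F, hF⟩ := h
  obtain ⟨s, hs, m, A, hI, hh⟩ := lvl_complete hC hB1 hB2 hB4 (n := 2 ^ (L + 1)) (zq x)
    (zq_or x) L
  obtain ⟨m', s', hI', hst, hh'⟩ := hC (Ia (2 ^ (L + 1))) (Ic (2 ^ (L + 1)) k) _ _
    (Sum.inl (Sum.inl false)) G2 (zq x) m s A (tau2 F) hI (zq_or x) hh (by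
      intro β _
      refine ⟨fun o => ?_, by simp [tau2]⟩
      rcases o with (_ | a) | ⟨t, c⟩
      · simp [G2, gCp, litP, tau2]
      · simp only [G2, gCp, Fm.holds_or, Fm.holds_and, Fm.holds_lit, litP, tau2]
        tauto
      · simp only [G2, Fm.holds_or, holds_gNv, Fm.holds_lit, litP, tau2]
        by_cases hv : vld t β
        · right
          cases hc : F (nam t β) c <;> simp [hv]
        · left
          simpa [vld] using hv)
  obtain ⟨m'', s'', -, hst', -⟩ := hC (Ic (2 ^ (L + 1)) k) Unit _ _ () (G3 ψ) (zq x) m' s'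
    (Nxt A (tau2 F)) (fun _ _ => False) hI' (zq_or x) hh' (by
      rintro β' ⟨X, hX, hβ'⟩
      refine ⟨fun _ => ?_, fun h => h⟩
      simp only [G3, Fm.holds_or, Fm.holds_and, holds_gNv, holds_gNe, holds_gEq, Fm.holds_map]
      by_cases hv0 : ∃ j, (β' (.inl (.inr (false, false, j))) ↔ β' (.inl (.inr (false, true, j))))
      · exact Or.inl hv0
      by_cases hv1 : ∃ j, (β' (.inl (.inr (true, false, j))) ↔ β' (.inl (.inr (true, true, j))))
      · exact Or.inr (Or.inl hv1)
      right; right
      push Not at hv0 hv1
      have hv : ∀ t j, ¬ (β' (.inl (.inr (t, false, j))) ↔ β' (.inl (.inr (t, true, j)))) := by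
        intro t j
        cases t
        · have := hv0 j; tauto
        · have := hv1 j; tauto
      classical
      let b : Bool → Fin (2 ^ (L + 1)) → Bool := fun t j =>
        decide (¬ β' (.inl (.inr (t, true, j))))
      have hb : ∀ t v j, β' (.inl (.inr (t, v, j))) ↔ v ≠ b t j := by
        intro t v j
        have := hv t j
        cases v
        · by_cases h1 : β' (.inl (.inr (t, true, j)))
          · simp only [b, h1]
            simp only [not_true_eq_false, decide_false, ne_eq, iff_false]
            tauto
          · simp only [b, h1]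
            simp only [not_false_eq_true, decide_true, ne_eq, Bool.false_eq_true, iff_true]
            tauto
        · simp [b]
      have hX2 : ∀ β ∈ X, ∀ t, vld t β → nam t β = b t := by
        intro β hβ t hvt
        funext j
        by_contra hne
        have h1 : β' (.inl (.inr (t, nam t β j, j))) := (hb _ _ _).2 hne
        have h2 := (hβ' _).1 h1 β hβ
        exact nam_unread hvt j h2
      have hcol : ∀ t v c, F (b t) c = v → β' (.inr (t, !v, c)) := by
        intro t v c hc
        rw [hβ']
        intro β hβ
        rintro ⟨h1, h2⟩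
        rw [hX2 β hβ t h1, hc] at h2
        cases v <;> simp at h2
      constructor
      · refine Fm.holds_mono' ?_ ψ (hF b)
        rintro ⟨u, v⟩ hu
        cases u with
        | x i =>
          simp only [Vr.ev] at hu
          cases v <;> simp [trL, litP, zq, hu]
        | b t j =>
          simp only [Vr.ev] at hu
          simp only [trL, litP]
          rw [hb, hu]
          cases v <;> simp
        | a t c =>
          simp only [Vr.ev] at hu
          simp only [trL, litP]
          exact hcol t v c hu
      · by_cases hbb : b false = b true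
        · right
          intro c
          cases hc : F (b false) c with
          | true => exact Or.inl ⟨hcol false true c hc, hcol true true c (hbb ▸ hc)⟩
          | false => exact Or.inr ⟨hcol false false c hc, hcol true false c (hbb ▸ hc)⟩
        · left
          obtain ⟨j, hj⟩ := Function.ne_iff.1 hbb
          refine ⟨j, ?_⟩
          simp only [hb]
          cases h1 : b false j <;> cases h2 : b true j <;> simp_all)
  exact ⟨s, hs, s', hst, s'', hst'⟩

end Vale.Agent.P027.N
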