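import Vale.Agent.P027.H833.Cmp

set_option linter.all false

/-! Padding of the names (module N6). -/

namespace Vale.Agent.P027.N

open Vale.Agent.P027 Vale.Agent.P027.Q

/-- longer names -/
def padL {p n k n' : ℕ} (h : n ≤ n') : Vr p n k × Bool → Vr p n' k × Bool
  | (.x i, v) => (.x i, v)
  | (.b t j, v) => (.b t (Fin.castLE h j), v)
  | (.a t c, v) => (.a t c, v)

theorem orc_pad {p n k n' : ℕ} (h : n ≤ n') (ψ : Fm (Vr p n k × Bool)) (x : Fin p → Bool) :
    Orc (ψ.map (padL h)) x ↔ Orc ψ x := by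
  constructor
  · rintro ⟨A, hA⟩
    let ext : (Fin n → Bool) → (Fin n' → Bool) := fun b j =>
      if hj : (j : ℕ) < n then b ⟨j, hj⟩ else false
    refine ⟨fun b => A (ext b), fun b => ?_⟩
    have := hA (fun t => ext (b t))
    rw [Fm.holds_map] at this
    refine Fm.holds_mono' ?_ ψ this
    rintro ⟨u, v⟩ hu
    cases u with
    | x i => exact hu
    | b t j => simpa [padL, Vr.ev, ext] using hu
    | a t c => exact hu
  · rintro ⟨A, hA⟩
    refine ⟨fun b => A (fun j => b (Fin.castLE h j)), fun b => ?_⟩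
    rw [Fm.holds_map]
    refine Fm.holds_mono' ?_ ψ (hA (fun t j => b t (Fin.castLE h j)))
    rintro ⟨u, v⟩ hu
    cases u with
    | x i => exact hu
    | b t j => exact hu
    | a t c => exact hu

/-- the chain expresses the oracle problem -/
theorem chain_iff (hS : StStepSound) (hC : StStepComplete) (hB1 : StBasSound)
    (hB2 : StBasExists) (hB3 : StBasCell) (hB4 : StBasHon) {p n k L : ℕ} (hn : n ≤ 2 ^ (L + 1))
    (ψ : Fm (Vr p n k × Bool)) (x : Fin p → Bool) :
    Sys L (ψ.map (padL hn)) (zq x) ↔ Orc ψ x := by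
  rw [← orc_pad hn ψ x]
  exact ⟨chain_sound hS hB1 hB3 _ x, chain_complete hC hB1 hB2 hB4 _ x⟩

end Vale.Agent.P027.N
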