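import Vale.Agent.P027.H833.Tab
import Vale.Agent.P027.H833.Pad
import Vale.Agent.P027.N.Snd
import Vale.Agent.P027.N.Cmp2
import Vale.Agent.P027.N.Siz3
import Vale.Agent.P027.H539.N2
import Vale.Agent.P027.H847.Cell
import Vale.Agent.P027.H790.Law3

set_option linter.all false

/-! Composition: oracle problems and machines as systems over the rationals. -/

namespace Vale.Agent.P027.N

open Vale.Agent.P027 Vale.Agent.P027.Q

/-- the chain expresses the oracle problem, unconditionally -/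
theorem chain_final {p n k L : ℕ} (hn : n ≤ 2 ^ (L + 1)) (ψ : Fm (Vr p n k × Bool))
    (x : Fin p → Bool) : Sys L (ψ.map (padL hn)) (zq x) ↔ Orc ψ x :=
  chain_iff (step_sound (stAnd law)) step_complete B7.stBasSound B7.stBasExists
    (B7.stBasCell (stParity law)) B7.stBasHon hn ψ x

lemma size_pos {α : Type} (f : Fm α) : 1 ≤ f.size := by
  cases f <;> simp [Fm.size]

/-- every oracle problem is a small system over the rationals -/
theorem orc_sys : ∃ C : ℕ, ∀ (p n k : ℕ) (ψ : Fm (Vr p n k × Bool)),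
    ∃ (V : ℕ) (E : List (Eqn (Fin p ⊕ Fin V))),
      V ≤ C * (n + k + ψ.size) ^ 3 ∧ E.length ≤ C * (n + k + ψ.size) ^ 3 ∧
      ∀ x : Fin p → Bool,
        (∃ y : Fin V → ℚ, ∀ e ∈ E, e.Holds (Sum.elim (zq x) y)) ↔ Orc ψ x := by
  refine ⟨27 * 3000001, fun p n k ψ => ?_⟩
  obtain ⟨L, hn, hL⟩ : ∃ L, n ≤ 2 ^ (L + 1) ∧ 2 ^ (L + 1) ≤ 2 * n + 2 := by
    rcases Nat.eq_zero_or_pos n with rfl | h
    · exact ⟨0, by norm_num, by norm_num⟩
    · refine ⟨Nat.log 2 n, (Nat.lt_pow_succ_log_self (by norm_num) n).le, ?_⟩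
      have := Nat.pow_log_le_self 2 (show n ≠ 0 by omega)
      rw [pow_succ]; omega
  obtain ⟨V, E, hV, hE, h⟩ := sys_size L (ψ.map (padL hn))
  have hs : (ψ.map (padL hn)).size = ψ.size := Fm.size_map _ _
  rw [hs] at hV hE
  have h1 := size_pos ψ
  have h2 : (2 ^ (L + 1) + k + ψ.size) ^ 3 ≤ 27 * (n + k + ψ.size) ^ 3 := by
    calc (2 ^ (L + 1) + k + ψ.size) ^ 3 ≤ (3 * (n + k + ψ.size)) ^ 3 :=
          Nat.pow_le_pow_left (by omega) 3
      _ = 27 * (n + k + ψ.size) ^ 3 := by ring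
  refine ⟨V, E, ?_, ?_, fun x => ?_⟩
  · refine hV.trans ?_
    calc 3000001 * (2 ^ (L + 1) + k + ψ.size) ^ 3 ≤ 3000001 * (27 * (n + k + ψ.size) ^ 3) :=
          Nat.mul_le_mul_left _ h2
      _ = 27 * 3000001 * (n + k + ψ.size) ^ 3 := by ring
  · refine hE.trans ?_
    calc 1000000 * (2 ^ (L + 1) + k + ψ.size) ^ 3 ≤ 3000001 * (27 * (n + k + ψ.size) ^ 3) :=
          Nat.mul_le_mul (by norm_num) h2
      _ = 27 * 3000001 * (n + k + ψ.size) ^ 3 := by ring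
  · rw [← h (zq x)]
    exact chain_final hn ψ x

/-- nondeterministic exponential time as small systems over the rationals -/
theorem nexp_sys (M : NTM) : ∃ C : ℕ, ∀ n N : ℕ, N ≤ 2 ^ n →
    ∃ (V : ℕ) (E : List (Eqn (Fin N ⊕ Fin V))),
      V ≤ C * (n + N + 1) ^ 6 ∧ E.length ≤ C * (n + N + 1) ^ 6 ∧
      ∀ x : Fin N → Bool,
        (∃ y : Fin V → ℚ, ∀ e ∈ E, e.Holds (Sum.elim (zq x) y)) ↔ M.Accepts x (2 ^ n) := by
  obtain ⟨K, C, hT⟩ := exists_tab M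
  obtain ⟨C', hO⟩ := orc_sys
  refine ⟨C' * (K + C + 2) ^ 3, fun n N hN => ?_⟩
  obtain ⟨ψ, hψ, hx⟩ := hT n N hN
  obtain ⟨V, E, hV, hE, h⟩ := hO N (n + (n + 1)) K ψ
  have h2 : (n + (n + 1) + K + ψ.size) ^ 3 ≤ (K + C + 2) ^ 3 * (n + N + 1) ^ 6 := by
    have h3 : n + (n + 1) + K + ψ.size ≤ (K + C + 2) * (n + N + 1) ^ 2 := by
      set X := n + N + 1
      have h4 : X ≤ X ^ 2 := Nat.le_self_pow (by norm_num) X
      have h5 : K ≤ K * X ^ 2 := Nat.le_mul_of_pos_right _ (by positivity)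
      have h6 : (K + C + 2) * X ^ 2 = K * X ^ 2 + C * X ^ 2 + 2 * X ^ 2 := by ring
      omega
    calc (n + (n + 1) + K + ψ.size) ^ 3 ≤ ((K + C + 2) * (n + N + 1) ^ 2) ^ 3 :=
          Nat.pow_le_pow_left h3 3
      _ = (K + C + 2) ^ 3 * (n + N + 1) ^ 6 := by ring
  refine ⟨V, E, ?_, ?_, fun x => (h x).trans (hx x)⟩
  · rw [mul_assoc]; exact hV.trans (Nat.mul_le_mul_left _ h2)
  · rw [mul_assoc]; exact hE.trans (Nat.mul_le_mul_left _ h2)

end Vale.Agent.P027.N
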