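import Mathlib

set_option linter.all false

/-! Nondeterministic Turing machines and their tableaux. -/

namespace Vale.Agent.P027.N

/-- moves of the head -/
inductive Move : Type
  | left | stay | right
  deriving DecidableEq

instance : Fintype Move := ⟨{.left, .stay, .right}, by intro x; cases x <;> simp⟩

/-- displacement -/
def Move.toInt : Move → ℤ
  | .left => -1
  | .stay => 0
  | .right => 1

/-- nondeterministic Turing machines with one two-way infinite tape; `δ q g q' g' d` means: in
state `q`, reading `g`, the machine may go to the state `q'`, write `g'` and move by `d` -/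
structure NTM : Type 1 where
  Q : Type
  Γ : Type
  finQ : Finite Q
  finΓ : Finite Γ
  start : Q
  acc : Q
  blank : Γ
  enc : Bool → Γ
  δ : Q → Γ → Q → Γ → Move → Prop

attribute [instance] NTM.finQ NTM.finΓ

/-- configurations -/
structure NTM.Cfg (M : NTM) : Type where
  q : M.Q
  head : ℤ
  tape : ℤ → M.Γ

/-- one step -/
def NTM.Step (M : NTM) (c c' : M.Cfg) : Prop :=
  ∃ d : Move, M.δ c.q (c.tape c.head) c'.q (c'.tape c.head) d ∧
    c'.head = c.head + d.toInt ∧ ∀ z, z ≠ c.head → c'.tape z = c.tape z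

/-- the initial configuration: the input is written on the cells `0, ..., N - 1` -/
def NTM.init (M : NTM) {N : ℕ} (x : Fin N → Bool) : M.Cfg where
  q := M.start
  head := 0
  tape := fun z => if h : 0 ≤ z ∧ z < N then M.enc (x ⟨z.toNat, by omega⟩) else M.blank

/-- reachable in exactly `t` steps -/
inductive NTM.Reach (M : NTM) (c : M.Cfg) : ℕ → M.Cfg → Prop
  | refl : M.Reach c 0 c
  | step {t : ℕ} {c' c'' : M.Cfg} : M.Reach c t c' → M.Step c' c'' → M.Reach c (t + 1) c''

/-- `M` has an accepting computation on `x` with fewer than `T` steps -/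
def NTM.Accepts (M : NTM) {N : ℕ} (x : Fin N → Bool) (T : ℕ) : Prop :=
  ∃ t < T, ∃ c, M.Reach (M.init x) t c ∧ c.q = M.acc

/-! ### Tableaux -/

/-- position relative to the head: left of the head, at the head, right of the head -/
inductive Mk : Type
  | l | h | r
  deriving DecidableEq

instance : Fintype Mk := ⟨{.l, .h, .r}, by intro x; cases x <;> simp⟩

/-- contents of a cell of the tableau: symbol, mark, and the transition of the row
(state, symbol read, new state, symbol written, move) -/
abbrev Ct (M : NTM) : Type := M.Γ × Mk × M.Q × M.Γ × M.Q × M.Γ × Move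

variable {M : NTM}

def Ct.sy (c : Ct M) : M.Γ := c.1
def Ct.mk' (c : Ct M) : Mk := c.2.1
def Ct.dat (c : Ct M) : M.Q × M.Γ × M.Q × M.Γ × Move := c.2.2

/-- transitions, with stuttering at the accepting state -/
def Trn (D : M.Q × M.Γ × M.Q × M.Γ × Move) : Prop :=
  M.δ D.1 D.2.1 D.2.2.1 D.2.2.2.1 D.2.2.2.2 ∨
    (D.1 = M.acc ∧ D.2.2.1 = D.1 ∧ D.2.2.2.1 = D.2.1 ∧ D.2.2.2.2 = .stay)

def vU (c : Ct M) : Prop := Trn c.2.2 ∧ (c.2.1 = .h → c.1 = c.2.2.2.1)

def vH (c c' : Ct M) : Prop := c.2.2 = c'.2.2 ∧
  ((c.2.1 = .l ∧ c'.2.1 = .l) ∨ (c.2.1 = .l ∧ c'.2.1 = .h) ∨ (c.2.1 = .h ∧ c'.2.1 = .r) ∨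
    (c.2.1 = .r ∧ c'.2.1 = .r))

/-- marks after a move -/
def mvM : Move → Mk → Mk → Prop
  | .stay, m, m' => m' = m
  | .right, m, m' => (m ≠ .r → m' = .l) ∧ (m = .r → m' ≠ .l)
  | .left, m, m' => (m ≠ .l → m' = .r) ∧ (m = .l → m' ≠ .r)

def vV (c c' : Ct M) : Prop := c'.2.2.1 = c.2.2.2.2.1 ∧ (c.2.1 = .h → c'.1 = c.2.2.2.2.2.1) ∧
  (c.2.1 ≠ .h → c'.1 = c.1) ∧ mvM c.2.2.2.2.2.2 c.2.1 c'.2.1

/-- tableaux for `2 ^ n` rows of length `2 ^ (n + 1)` -/
structure Tabl (M : NTM) (n : ℕ) {N : ℕ} (x : Fin N → Bool) (c : ℕ → ℕ → Ct M) : Prop where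
  uni : ∀ T < 2 ^ n, ∀ S < 2 ^ (n + 1), vU (c T S)
  hor : ∀ T < 2 ^ n, ∀ S, S + 1 < 2 ^ (n + 1) → vH (c T S) (c T (S + 1))
  ver : ∀ T, T + 1 < 2 ^ n → ∀ S < 2 ^ (n + 1), vV (c T S) (c (T + 1) S)
  lft : ∀ T < 2 ^ n, (c T 0).2.1 ≠ .r
  rgt : ∀ T < 2 ^ n, (c T (2 ^ (n + 1) - 1)).2.1 ≠ .l
  hed : (c 0 (2 ^ n)).2.1 = .h ∧ (c 0 (2 ^ n)).2.2.1 = M.start
  inp : ∀ i : Fin N, (c 0 (2 ^ n + (i : ℕ))).1 = M.enc (x i)
  blk : ∀ S < 2 ^ (n + 1), (∀ i : Fin N, S ≠ 2 ^ n + (i : ℕ)) → (c 0 S).1 = M.blank
  acc : ∀ S < 2 ^ (n + 1), (c (2 ^ n - 1) S).2.2.1 = M.acc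

/-- the shape of a row of marks -/
lemma row_marks {W : ℕ} (hW : 0 < W) (m : ℕ → Mk)
    (hor : ∀ S, S + 1 < W → (m S = .l ∧ m (S + 1) = .l) ∨ (m S = .l ∧ m (S + 1) = .h) ∨
      (m S = .h ∧ m (S + 1) = .r) ∨ (m S = .r ∧ m (S + 1) = .r))
    (lft : m 0 ≠ .r) (rgt : m (W - 1) ≠ .l) :
    ∃ h < W, m h = .h ∧ (∀ S < h, m S = .l) ∧ ∀ S, h < S → S < W → m S = .r := by
  classical
  have hex : ∃ S, m S ≠ .l := ⟨_, rgt⟩
  set h := Nat.find hex with hh
  have h1 : m h ≠ .l := Nat.find_spec hex
  have h2 : ∀ S < h, m S = .l := fun S hS => by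
    have := Nat.find_min hex hS
    tauto
  have hlt : h < W := by
    have : h ≤ W - 1 := Nat.find_min' hex rgt
    omega
  have h3 : m h = .h := by
    rcases Nat.eq_zero_or_pos h with h0 | h0
    · rw [h0] at h1 ⊢
      cases hm : m 0 <;> simp_all
    · have h4 := hor (h - 1) (by omega)
      have h5 := h2 (h - 1) (by omega)
      rw [show h - 1 + 1 = h by omega] at h4
      rw [h5] at h4
      rcases h4 with ⟨-, h4⟩ | ⟨-, h4⟩ | ⟨h4, -⟩ | ⟨h4, -⟩
      · exact absurd h4 h1
      · exact h4
      · cases h4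
      · cases h4
  refine ⟨h, hlt, h3, h2, ?_⟩
  intro S hS
  induction S, hS using Nat.le_induction with
  | base =>
    intro hS
    have h4 := hor h hS
    rw [h3] at h4
    rcases h4 with ⟨h4, -⟩ | ⟨h4, -⟩ | ⟨-, h4⟩ | ⟨h4, -⟩
    · cases h4
    · cases h4
    · exact h4
    · cases h4
  | succ S hS ih =>
    intro hSW
    have h5 := ih (by omega)
    have h4 := hor S hSW
    rw [h5] at h4
    rcases h4 with ⟨h4, -⟩ | ⟨h4, -⟩ | ⟨h4, -⟩ | ⟨-, h4⟩
    · cases h4
    · cases h4
    · cases h4
    · exact h4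

lemma row_dat {n N : ℕ} {x : Fin N → Bool} {c : ℕ → ℕ → Ct M} (hc : Tabl M n x c) {T : ℕ}
    (hT : T < 2 ^ n) : ∀ S < 2 ^ (n + 1), (c T S).2.2 = (c T 0).2.2 := by
  intro S
  induction S with
  | zero => intro _; rfl
  | succ S ih =>
    intro hS
    rw [← ih (by omega)]
    exact (hc.hor T hT S hS).1.symm

/-- a configuration is described by a row -/
structure Mat (n : ℕ) (c : ℕ → Ct M) (k : M.Cfg) (h : ℕ) : Prop where
  hlt : h < 2 ^ (n + 1)
  q : ∀ S < 2 ^ (n + 1), (c S).2.2.1 = k.q
  head : k.head = (h : ℤ) - 2 ^ n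
  mh : (c h).2.1 = .h
  ml : ∀ S < h, (c S).2.1 = .l
  mr : ∀ S, h < S → S < 2 ^ (n + 1) → (c S).2.1 = .r
  sy : ∀ S < 2 ^ (n + 1), (c S).1 = k.tape ((S : ℤ) - 2 ^ n)
  out : ∀ z : ℤ, (z + 2 ^ n < 0 ∨ 2 ^ (n + 1) ≤ z + 2 ^ n) → k.tape z = M.blank

theorem tabl_sound {n N : ℕ} (hN : N ≤ 2 ^ n) {x : Fin N → Bool} {c : ℕ → ℕ → Ct M}
    (hc : Tabl M n x c) : M.Accepts x (2 ^ n) := by
  have hp : (2 : ℕ) ^ (n + 1) = 2 * 2 ^ n := by ring
  have hpos : 0 < 2 ^ n := by positivity
  have hrow : ∀ T < 2 ^ n, ∃ h < 2 ^ (n + 1), (c T h).2.1 = .h ∧ (∀ S < h, (c T S).2.1 = .l) ∧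
      ∀ S, h < S → S < 2 ^ (n + 1) → (c T S).2.1 = .r := fun T hT =>
    row_marks (by positivity) (fun S => (c T S).2.1) (fun S hS => (hc.hor T hT S hS).2)
      (hc.lft T hT) (hc.rgt T hT)
  have key : ∀ T < 2 ^ n, M.Accepts x (2 ^ n) ∨ ∃ k h, M.Reach (M.init x) T k ∧
      Mat n (c T) k h := by
    intro T
    induction T with
    | zero =>
      intro _
      right
      obtain ⟨h, hh, h1, h2, h3⟩ := hrow 0 hpos
      have hh0 : h = 2 ^ n := by
        have h4 := hc.hed.1
        rcases lt_trichotomy h (2 ^ n) with h5 | h5 | h5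
        · rw [h3 _ h5 (by omega)] at h4; cases h4
        · exact h5
        · rw [h2 _ h5] at h4; cases h4
      refine ⟨M.init x, h, .refl, hh, ?_, ?_, h1, h2, h3, ?_, ?_⟩
      · intro S hS
        rw [row_dat hc hpos S hS, ← row_dat hc hpos (2 ^ n) (by omega)]
        exact hc.hed.2
      · rw [hh0]; simp [NTM.init]
      · intro S hS
        simp only [NTM.init]
        split_ifs with hz
        · have h5 : (S : ℤ) - 2 ^ n = ((S - 2 ^ n : ℕ) : ℤ) := by
            have : 2 ^ n ≤ S := by
              have := hz.1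
              have h6 : ((2 : ℤ) ^ n) = ((2 ^ n : ℕ) : ℤ) := by push_cast; rfl
              omega
            push_cast [Nat.cast_sub this]; ring
          have h7 := hz.2
          rw [h5] at h7
          have h8 : S - 2 ^ n < N := by exact_mod_cast h7
          have h9 := hc.inp ⟨S - 2 ^ n, h8⟩
          have h10 : 2 ^ n ≤ S := by
            have := hz.1
            have h6 : ((2 : ℤ) ^ n) = ((2 ^ n : ℕ) : ℤ) := by push_cast; rfl
            omega
          simp only at h9
          rw [show 2 ^ n + (S - 2 ^ n) = S by omega] at h9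
          rw [h9]
          congr 2
          ext
          simp only [h5, Int.toNat_natCast]
        · apply hc.blk S hS
          intro i hi
          apply hz
          rw [hi]
          push_cast
          constructor
          · linarith [i.2, Int.natCast_nonneg (i : ℕ)]
          · have := i.2
            have : ((i : ℕ) : ℤ) < N := by exact_mod_cast this
            linarith
      · intro z hz
        simp only [NTM.init]
        rw [dif_neg]
        rintro ⟨h5, h6⟩
        have h7 : ((2 : ℤ) ^ (n + 1)) = 2 * 2 ^ n := by ring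
        have h8 : (N : ℤ) ≤ 2 ^ n := by exact_mod_cast hN
        have h9 : (0 : ℤ) < 2 ^ n := by positivity
        rcases hz with hz | hz <;> linarith
    | succ T ih =>
      intro hT
      rcases ih (by omega) with h | ⟨k, h, hr, hm⟩
      · exact Or.inl h
      have hu := hc.uni T (by omega) h hm.hlt
      obtain ⟨htr, hsy⟩ := hu
      have hsy := hsy hm.mh
      have hdat := row_dat hc (T := T) (by omega)
      set D := (c T h).2.2 with hD
      have hDS : ∀ S < 2 ^ (n + 1), (c T S).2.2 = D := fun S hS => by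
        rw [hdat S hS, hD, hdat h hm.hlt]
      have hkq : k.q = D.1 := (hm.q h hm.hlt).symm
      have hkt : k.tape k.head = D.2.1 := by
        rw [hm.head, ← hm.sy h hm.hlt, hsy]
      rcases htr with htr | ⟨h1, -⟩
      swap
      · left
        exact ⟨T, by omega, k, hr, by rw [hkq, h1]⟩
      right
      obtain ⟨h', hh', h1', h2', h3'⟩ := hrow (T + 1) hT
      have hV := hc.ver T hT
      let k' : M.Cfg := ⟨D.2.2.1, k.head + D.2.2.2.2.toInt, Function.update k.tape k.head D.2.2.2.1⟩
      have hst : M.Step k k' := by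
        refine ⟨D.2.2.2.2, ?_, rfl, ?_⟩
        · simp only [k', Function.update_self, hkq, hkt]
          exact htr
        · intro z hz
          simp only [k', Function.update_of_ne hz]
      refine ⟨k', h', .step hr hst, hh', ?_, ?_, h1', h2', h3', ?_, ?_⟩
      · intro S hS
        rw [(hV S hS).1, hDS S hS]
      · -- the head
        have hmv : ∀ S < 2 ^ (n + 1), mvM D.2.2.2.2 (c T S).2.1 (c (T + 1) S).2.1 := by
          intro S hS
          have := (hV S hS).2.2.2
          rwa [hDS S hS] at this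
        have hhd : (h' : ℤ) = h + D.2.2.2.2.toInt := by
          have e1 := hmv h hm.hlt
          rw [hm.mh] at e1
          have e2 := hmv h' hh'
          rw [h1'] at e2
          cases hd : D.2.2.2.2 with
          | stay =>
            rw [hd] at e1
            simp only [mvM] at e1
            simp only [Move.toInt]
            rcases lt_trichotomy h h' with h5 | h5 | h5
            · rw [h2' _ h5] at e1; cases e1
            · omega
            · rw [h3' _ h5 hm.hlt] at e1; cases e1
          | right =>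
            rw [hd] at e1 e2
            simp only [mvM] at e1 e2
            simp only [Move.toInt]
            have e3 : (c (T + 1) h).2.1 = .l := e1.1 (by simp)
            have e4 : h < h' := by
              by_contra h5
              rcases Nat.lt_or_ge h' h with h6 | h6
              · rw [h3' _ h6 hm.hlt] at e3; cases e3
              · have : h = h' := by omega
                rw [this, h1'] at e3; cases e3
            by_contra h5
            have h6 : h + 1 < h' := by omega
            have e5 := hmv (h + 1) (by omega)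
            rw [hd] at e5
            simp only [mvM] at e5
            rw [hm.mr (h + 1) (by omega) (by omega)] at e5
            exact e5.2 rfl (h2' _ h6)
          | left =>
            rw [hd] at e1 e2
            simp only [mvM] at e1 e2
            simp only [Move.toInt]
            have e3 : (c (T + 1) h).2.1 = .r := e1.1 (by simp)
            have e4 : h' < h := by
              by_contra h5
              rcases Nat.lt_or_ge h h' with h6 | h6
              · rw [h2' _ h6] at e3; cases e3
              · have : h = h' := by omega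
                rw [this, h1'] at e3; cases e3
            by_contra h5
            have h6 : h' < h - 1 := by omega
            have h7 := hm.hlt
            have e5 := hmv (h - 1) (by omega)
            rw [hd] at e5
            simp only [mvM] at e5
            rw [hm.ml (h - 1) (by omega)] at e5
            exact e5.2 rfl (h3' _ h6 (by omega))
        simp only [k']
        rw [hm.head, hhd]; ring
      · intro S hS
        simp only [k']
        rcases lt_trichotomy S h with h5 | h5 | h5
        · rw [Function.update_of_ne, ← hm.sy S hS]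
          · apply (hV S hS).2.2.1
            rw [hm.ml S h5]; simp
          · rw [hm.head]
            intro h6
            have : (S : ℤ) = h := by linarith
            omega
        · subst h5
          rw [hm.head, Function.update_self]
          have := (hV S hS).2.1 hm.mh
          rw [this]
        · rw [Function.update_of_ne, ← hm.sy S hS]
          · apply (hV S hS).2.2.1
            rw [hm.mr S h5 hS]; simp
          · rw [hm.head]
            intro h6
            have : (S : ℤ) = h := by linarith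
            omega
      · intro z hz
        simp only [k']
        rw [Function.update_of_ne, hm.out z hz]
        rintro rfl
        rw [hm.head] at hz
        have h5 : (h : ℤ) < 2 ^ (n + 1) := by exact_mod_cast hm.hlt
        have h6 : (0 : ℤ) ≤ h := by positivity
        rcases hz with hz | hz <;> linarith
  rcases key (2 ^ n - 1) (by omega) with h | ⟨k, h, hr, hm⟩
  · exact h
  · exact ⟨2 ^ n - 1, by omega, k, hr, by rw [← hm.q h hm.hlt]; exact hc.acc h hm.hlt⟩

/-- a run as a sequence -/
lemma reach_seq {M : NTM} {c k : M.Cfg} {t : ℕ} (h : M.Reach c t k) :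
    ∃ r : ℕ → M.Cfg, r 0 = c ∧ r t = k ∧ ∀ i < t, M.Step (r i) (r (i + 1)) := by
  induction h with
  | refl => exact ⟨fun _ => c, rfl, rfl, fun i hi => absurd hi (Nat.not_lt_zero i)⟩
  | @step t c' c'' _ hs ih =>
    obtain ⟨r, h0, ht, hr⟩ := ih
    refine ⟨fun i => if i ≤ t then r i else c'', by simp [h0], by simp, fun i hi => ?_⟩
    rcases Nat.lt_or_ge i t with h1 | h1
    · simp only [h1.le, if_true, show i + 1 ≤ t by omega]
      exact hr i h1
    · have : i = t := by omega
      subst this
      simpa [ht] using hs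

theorem tabl_complete {n N : ℕ} (hN : N ≤ 2 ^ n) {x : Fin N → Bool}
    (h : M.Accepts x (2 ^ n)) : ∃ c : ℕ → ℕ → Ct M, Tabl M n x c := by
  obtain ⟨t, ht, k, hr, hk⟩ := h
  obtain ⟨r, h0, hrt, hs⟩ := reach_seq hr
  -- the stuttering run
  let R : ℕ → M.Cfg := fun i => r (min i t)
  have hD : ∀ i, ∃ D : M.Q × M.Γ × M.Q × M.Γ × Move, Trn D ∧ D.1 = (R i).q ∧
      D.2.1 = (R i).tape (R i).head ∧ D.2.2.1 = (R (i + 1)).q ∧
      D.2.2.2.1 = (R (i + 1)).tape (R i).head ∧ (R (i + 1)).head = (R i).head + D.2.2.2.2.toInt ∧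
      ∀ z, z ≠ (R i).head → (R (i + 1)).tape z = (R i).tape z := by
    intro i
    rcases Nat.lt_or_ge i t with hi | hi
    · have e1 : R i = r i := by simp only [R, Nat.min_eq_left hi.le]
      have e2 : R (i + 1) = r (i + 1) := by simp only [R, Nat.min_eq_left (show i + 1 ≤ t from hi)]
      obtain ⟨d, h1, h2, h3⟩ := hs i hi
      rw [e1, e2]
      exact ⟨((r i).q, (r i).tape (r i).head, (r (i + 1)).q, (r (i + 1)).tape (r i).head, d),
        Or.inl h1, rfl, rfl, rfl, rfl, h2, h3⟩
    · have e1 : R i = k := by simp only [R, Nat.min_eq_right hi, hrt]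
      have e2 : R (i + 1) = k := by
        simp only [R, Nat.min_eq_right (show t ≤ i + 1 by omega), hrt]
      rw [e1, e2]
      exact ⟨(k.q, k.tape k.head, k.q, k.tape k.head, .stay), Or.inr ⟨hk, rfl, rfl, rfl⟩, rfl, rfl,
        rfl, rfl, by simp [Move.toInt], fun _ _ => rfl⟩
  choose D hD1 hD2 hD3 hD4 hD5 hD6 hD7 using hD
  have hR0 : R 0 = M.init x := by simp only [R, Nat.zero_min, h0]
  have htI : ∀ d : Move, |d.toInt| ≤ 1 := by intro d; cases d <;> simp [Move.toInt]
  have hhead : ∀ i, |(R i).head| ≤ i := by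
    intro i
    induction i with
    | zero => rw [hR0]; simp [NTM.init]
    | succ i ih =>
      rw [hD6]
      push_cast
      calc |(R i).head + (D i).2.2.2.2.toInt| ≤ |(R i).head| + |(D i).2.2.2.2.toInt| :=
            abs_add_le _ _
        _ ≤ i + 1 := add_le_add ih (htI _)
  have hp : (2 : ℤ) ^ (n + 1) = 2 * 2 ^ n := by ring
  have hpN : (2 : ℕ) ^ (n + 1) = 2 * 2 ^ n := by ring
  have hpos : 0 < 2 ^ n := by positivity
  let mark : ℤ → ℤ → Mk := fun z h => if z < h then .l else if z = h then .h else .r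
  have mark_l : ∀ z h, mark z h = .l ↔ z < h := by
    intro z h; simp only [mark]; split_ifs <;> simp_all
  have mark_h : ∀ z h, mark z h = .h ↔ z = h := by
    intro z h; simp only [mark]; split_ifs <;> simp_all
    omega
  have mark_r : ∀ z h, mark z h = .r ↔ h < z := by
    intro z h; simp only [mark]; split_ifs <;> simp_all <;> omega
  refine ⟨fun T S => ((R T).tape ((S : ℤ) - 2 ^ n), mark ((S : ℤ) - 2 ^ n) (R T).head, D T),
    ?_, ?_, ?_, ?_, ?_, ?_, ?_, ?_, ?_⟩
  · intro T hT S hS
    refine ⟨hD1 T, ?_⟩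
    simp only
    rw [mark_h]
    intro h1
    rw [h1, hD3]
  · intro T hT S hS
    refine ⟨rfl, ?_⟩
    simp only
    simp only [mark_l, mark_h, mark_r]
    push_cast
    omega
  · intro T hT S hS
    refine ⟨?_, ?_, ?_, ?_⟩
    · simp only; rw [hD2, hD4]
    · simp only; rw [mark_h]; intro h1; rw [h1, hD5]
    · simp only; rw [Ne, mark_h]; intro h1; exact hD7 T _ h1
    · simp only
      have h6 := hD6 T
      rw [h6]
      cases hd : (D T).2.2.2.2 with
      | stay => simp [mvM, Move.toInt]
      | right =>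
        simp only [mvM, Move.toInt, Ne, mark_r, mark_l]
        omega
      | left =>
        simp only [mvM, Move.toInt, Ne, mark_r, mark_l]
        omega
  · intro T hT
    simp only
    rw [Ne, mark_r]
    have h1 := hhead T
    rw [abs_le] at h1
    have h2 : (T : ℤ) < 2 ^ n := by exact_mod_cast hT
    push_cast
    linarith [h1.1]
  · intro T hT
    simp only
    rw [Ne, mark_l]
    have h1 := hhead T
    rw [abs_le] at h1
    have h2 : (T : ℤ) < 2 ^ n := by exact_mod_cast hT
    have h3 : ((2 ^ (n + 1) - 1 : ℕ) : ℤ) = 2 ^ (n + 1) - 1 := by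
      rw [Nat.cast_sub (Nat.one_le_two_pow)]; push_cast; ring
    rw [h3]
    have := h1.2
    push Not
    linarith
  · simp only
    refine ⟨?_, ?_⟩
    · rw [mark_h, hR0]; simp [NTM.init]
    · rw [hD2, hR0]; simp [NTM.init]
  · intro i
    simp only
    rw [hR0]
    simp only [NTM.init]
    rw [dif_pos]
    · congr 2
      ext
      simp
    · push_cast
      constructor
      · linarith [Int.natCast_nonneg (i : ℕ)]
      · have : ((i : ℕ) : ℤ) < N := by exact_mod_cast i.2
        linarith
  · intro S hS hi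
    simp only
    rw [hR0]
    simp only [NTM.init]
    rw [dif_neg]
    rintro ⟨h1, h2⟩
    have h3 : ((2 : ℤ) ^ n) = ((2 ^ n : ℕ) : ℤ) := by push_cast; rfl
    have h4 : 2 ^ n ≤ S := by omega
    exact hi ⟨S - 2 ^ n, by omega⟩ (by simp only; omega)
  · intro S hS
    simp only
    rw [hD2]
    have : R (2 ^ n - 1) = k := by
      simp only [R, Nat.min_eq_right (show t ≤ 2 ^ n - 1 by omega), hrt]
    rw [this, hk]

theorem tabl_iff {n N : ℕ} (hN : N ≤ 2 ^ n) (x : Fin N → Bool) :
    (∃ c : ℕ → ℕ → Ct M, Tabl M n x c) ↔ M.Accepts x (2 ^ n) :=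
  ⟨fun ⟨_, hc⟩ => tabl_sound hN hc, tabl_complete hN⟩

end Vale.Agent.P027.N
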