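import Vale.Agent.P027.H833.Pad

set_option linter.all false

/-! The chain with one level for each letter of a name: the length of the names is arbitrary
(at least two). -/

namespace Vale.Agent.P027.N

open Vale.Agent.P027 Vale.Agent.P027.Q

/-- the system with linearly many levels, for names of length `L + 2` -/
def SysN {p k : ℕ} (L : ℕ) (ψ : Fm (Vr p (L + 2) k × Bool)) (z : Fin p → ℚ) : Prop :=
  ∃ s : Ia (L + 2) → ℚ, Lvl (L + 2) z L s ∧
    ∃ s' : Ic (L + 2) k → ℚ, Stp (Sum.inl (Sum.inl false)) G2 z s s' ∧
      ∃ s'' : Unit → ℚ, Stp () (G3 ψ) z s' s''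

/-- soundness of the levels: at level `l` all sets of `l + 2` letters -/
theorem lvl_sound_lin (hS : StStepSound) (hB1 : StBasSound) (hB3 : StBasCell) {n : ℕ} {π : Type}
    (z : π → ℚ) (hz : ∀ x, z x = 0 ∨ z x = 1) (l : ℕ) :
    ∀ s : Ia n → ℚ, Lvl n z l s → ∃ m : Ia n → ℤ, (∀ k, Ix (m k) (s k)) ∧
      ∀ S : Finset (Ltr n), S.card = l + 2 →
        ∃ q β, Cell m q β ∧ ∀ a, β (Sum.inr a) ↔ a ∉ S := by
  induction l with
  | zero =>
    intro s hs
    exact lvl_sound hS hB1 hB3 z hz 0 s hs
  | succ l ih =>
    rintro s ⟨s1, hs1, hst⟩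
    obtain ⟨m, hm, hcell⟩ := ih s1 hs1
    obtain ⟨m', bit, hIx', hG, hC⟩ := hS (Ia n) (Ia n) (Option (Ltr n)) π (Sum.inl false) G1 z
      m s1 s hm hz hst
    refine ⟨m', hIx', fun S hSc => ?_⟩
    obtain ⟨a, ha, b, hb, hab⟩ := Finset.one_lt_card.1 (show 1 < S.card by omega)
    obtain ⟨q, β, hq, hβ⟩ := hcell (S.erase a) (by rw [Finset.card_erase_of_mem ha]; omega)
    obtain ⟨q', β', hq', hβ'⟩ := hcell (S.erase b) (by rw [Finset.card_erase_of_mem hb]; omega)
    have hqq : q ≠ q' := by
      refine cell_ne hq hq' (Sum.inr a) ?_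
      rw [hβ, hβ']
      simp [ha, hab]
    obtain ⟨ht, hb1⟩ := gCp_bits (fun o => hG q _ hq o)
    obtain ⟨ht', hb1'⟩ := gCp_bits (fun o => hG q' _ hq' o)
    obtain ⟨Q, hQ⟩ := hC q _ q' _ hq hq' hqq (.inl true) ht ht'
    refine ⟨Q, _, hQ, fun c => ?_⟩
    rw [hb1, hb1', hβ, hβ']
    simp only [Finset.mem_erase]
    constructor
    · rintro ⟨h1, h2⟩ h3
      by_cases hca : c = a
      · exact h2 ⟨by rw [hca]; exact hab, h3⟩
      · exact h1 ⟨hca, h3⟩
    · intro h
      exact ⟨fun h1 => h h1.2, fun h1 => h h1.2⟩

/-- soundness of the chain -/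
theorem chain_sound_lin (hS : StStepSound) (hB1 : StBasSound) (hB3 : StBasCell) {p k L : ℕ}
    (ψ : Fm (Vr p (L + 2) k × Bool)) (x : Fin p → Bool) (h : SysN L ψ (zq x)) :
    Orc ψ x := by
  obtain ⟨s, hs, s', h2, s'', h3⟩ := h
  obtain ⟨m, hm, hcell⟩ := lvl_sound_lin hS hB1 hB3 (zq x) (zq_or x) L s hs
  obtain ⟨m', bit, hm', hG, hC⟩ := hS _ _ _ _ _ G2 (zq x) m s s' hm (zq_or x) h2
  obtain ⟨m'', bit', -, hG', -⟩ := hS _ _ _ _ _ (G3 ψ) (zq x) m' s' s'' hm' (zq_or x) h3
  choose q β hc hβ using fun (t : Bool) (b : Fin (L + 2) → Bool) =>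
    hcell (nameS t b) (nameS_card t b)
  -- the letters
  have hlet : ∀ t b, bit (q t b) (.inl (.inl true)) ∧
      ∀ a, bit (q t b) (.inl (.inr a)) ↔ a ∉ nameS t b := by
    intro t b
    obtain ⟨h1, h2⟩ := gCp_bits (fun o => hG (q t b) _ (hc t b) (.inl o))
    exact ⟨h1, fun a => (h2 a).trans (hβ t b a)⟩
  -- the colours
  have hcol : ∀ t b c, ¬ bit (q t b) (.inr (t, false, c)) ∨ ¬ bit (q t b) (.inr (t, true, c)) := by
    intro t b c
    have := hG (q t b) _ (hc t b) (.inr (t, c))
    simp only [G2, Fm.holds_or, holds_gNv, Fm.holds_lit, litP] at this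
    rcases this with ⟨j, hj⟩ | h
    · rw [hβ, hβ, mem_nameS, mem_nameS] at hj
      cases hb : b j <;> simp [hb] at hj
    · exact h
  classical
  let A : Bool → (Fin (L + 2) → Bool) → Fin k → Bool := fun t b c =>
    decide (bit (q t b) (.inr (t, false, c)))
  have hA : ∀ t b c v, bit (q t b) (.inr (t, !v, c)) → A t b c = v := by
    intro t b c v hv
    cases v with
    | true => simpa [A] using hv
    | false =>
      rcases hcol t b c with h | h
      · simpa [A] using h
      · exact absurd hv h
  -- the cell of a pair of names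
  have hpair : ∀ b : Bool → Fin (L + 2) → Bool, ∃ Q, Cell m' Q (fun j =>
      bit (q false (b false)) j ∧ bit (q true (b true)) j) := by
    intro b
    refine hC _ _ _ _ (hc false (b false)) (hc true (b true)) ?_ (.inl (.inl true))
      (hlet _ _).1 (hlet _ _).1
    have j : Fin (L + 2) := ⟨0, by positivity⟩
    refine cell_ne (hc false (b false)) (hc true (b true)) (Sum.inr (false, b false j, j)) ?_
    rw [hβ, hβ, mem_nameS, mem_nameS]
    simp
  -- the final check
  have hfin : ∀ b : Bool → Fin (L + 2) → Bool,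
      ψ.holds (fun u => Vr.ev x b (fun t => A t (b t)) u.1 = u.2) ∧
      ((b false ≠ b true) ∨ A false (b false) = A true (b true)) := by
    intro b
    obtain ⟨Q, hQ⟩ := hpair b
    have hchk := hG' Q _ hQ ()
    have hlt : ∀ t v j, (bit (q false (b false)) (.inl (.inr (t, v, j))) ∧
        bit (q true (b true)) (.inl (.inr (t, v, j)))) ↔ v ≠ b t j := by
      intro t v j
      rw [(hlet _ _).2, (hlet _ _).2, mem_nameS, mem_nameS]
      cases t <;> simp
    simp only [G3, Fm.holds_or, Fm.holds_and, holds_gNv, holds_gNe, holds_gEq, Fm.holds_map,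
      hlt] at hchk
    rcases hchk with ⟨j, hj⟩ | ⟨j, hj⟩ | ⟨h1, h2⟩
    · cases hb : b false j <;> simp [hb] at hj
    · cases hb : b true j <;> simp [hb] at hj
    constructor
    · refine Fm.holds_mono' ?_ ψ h1
      rintro ⟨u, v⟩ hu
      cases u with
      | x i =>
        cases v
        · simp only [trL, litP, zq] at hu
          simp only [Vr.ev]
          by_contra hx
          simp [hx] at hu
        · simp only [trL, litP, zq] at hu
          simp only [Vr.ev]
          by_contra hx
          simp [hx] at hu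
      | b t j =>
        simp only [trL, litP] at hu
        rw [hlt] at hu
        simp only [Vr.ev]
        cases v <;> cases hb : b t j <;> simp_all
      | a t c =>
        simp only [trL, litP] at hu
        simp only [Vr.ev]
        cases t
        · exact hA _ _ _ _ hu.1
        · exact hA _ _ _ _ hu.2
    · rcases h2 with ⟨j, hj⟩ | h2
      · left
        intro hbb
        rw [hbb] at hj
        cases hb : b true j <;> simp [hb] at hj
      · right
        funext c
        rcases h2 c with ⟨⟨h4, h5⟩, ⟨h6, h7⟩⟩ | ⟨⟨h4, h5⟩, ⟨h6, h7⟩⟩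
        · rw [hA false (b false) c true h4, hA true (b true) c true h7]
        · rw [hA false (b false) c false h4, hA true (b true) c false h7]
  have hAA : ∀ b, A false b = A true b := by
    intro b
    rcases (hfin (fun _ => b)).2 with h | h
    · exact absurd rfl h
    · exact h
  refine ⟨A false, fun b => ?_⟩
  have := (hfin b).1
  refine Fm.holds_mono' ?_ ψ this
  rintro ⟨u, v⟩ hu
  cases u with
  | x i => exact hu
  | b t j => exact hu
  | a t c =>
    simp only [Vr.ev] at hu ⊢
    cases t
    · exact hu
    · rw [hAA]; exact hu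

/-- completeness of the chain -/
theorem chain_complete_lin (hC : StStepComplete) (hB1 : StBasSound) (hB2 : StBasExists)
    (hB4 : StBasHon) {p k L : ℕ} (ψ : Fm (Vr p (L + 2) k × Bool)) (x : Fin p → Bool)
    (h : Orc ψ x) : SysN L ψ (zq x) := by
  obtain ⟨F, hF⟩ := h
  obtain ⟨s, hs, m, A, hI, hh⟩ := lvl_complete hC hB1 hB2 hB4 (n := L + 2) (zq x)
    (zq_or x) L
  obtain ⟨m', s', hI', hst, hh'⟩ := hC (Ia (L + 2)) (Ic (L + 2) k) _ _
    (Sum.inl (Sum.inl false)) G2 (zq x) m s A (tau2 F) hI (zq_or x) hh (by
      intro β _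
      refine ⟨fun o => ?_, by simp [tau2]⟩
      rcases o with (_ | a) | ⟨t, c⟩
      · simp [G2, gCp, litP, tau2]
      · simp only [G2, gCp, Fm.holds_or, Fm.holds_and, Fm.holds_lit, litP, tau2]
        tauto
      · simp only [G2, Fm.holds_or, holds_gNv, Fm.holds_lit, litP, tau2]
        by_cases hv : vld t β
        · right
          cases hc : F (nam t β) c <;> simp [hv]
        · left
          simpa [vld] using hv)
  obtain ⟨m'', s'', -, hst', -⟩ := hC (Ic (L + 2) k) Unit _ _ () (G3 ψ) (zq x) m' s'
    (Nxt A (tau2 F)) (fun _ _ => False) hI' (zq_or x) hh' (by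
      rintro β' ⟨X, hX, hβ'⟩
      refine ⟨fun _ => ?_, fun h => h⟩
      simp only [G3, Fm.holds_or, Fm.holds_and, holds_gNv, holds_gNe, holds_gEq, Fm.holds_map]
      by_cases hv0 : ∃ j, (β' (.inl (.inr (false, false, j))) ↔ β' (.inl (.inr (false, true, j))))
      · exact Or.inl hv0
      by_cases hv1 : ∃ j, (β' (.inl (.inr (true, false, j))) ↔ β' (.inl (.inr (true, true, j))))
      · exact Or.inr (Or.inl hv1)
      right; right
      push Not at hv0 hv1
      have hv : ∀ t j, ¬ (β' (.inl (.inr (t, false, j))) ↔ β' (.inl (.inr (t, true, j)))) := by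
        intro t j
        cases t
        · have := hv0 j; tauto
        · have := hv1 j; tauto
      classical
      let b : Bool → Fin (L + 2) → Bool := fun t j =>
        decide (¬ β' (.inl (.inr (t, true, j))))
      have hb : ∀ t v j, β' (.inl (.inr (t, v, j))) ↔ v ≠ b t j := by
        intro t v j
        have := hv t j
        cases v
        · by_cases h1 : β' (.inl (.inr (t, true, j)))
          · simp only [b, h1]
            simp only [not_true_eq_false, decide_false, ne_eq, iff_false]
            tauto
          · simp only [b, h1]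
            simp only [not_false_eq_true, decide_true, ne_eq, Bool.false_eq_true, iff_true]
            tauto
        · simp [b]
      have hX2 : ∀ β ∈ X, ∀ t, vld t β → nam t β = b t := by
        intro β hβ t hvt
        funext j
        by_contra hne
        have h1 : β' (.inl (.inr (t, nam t β j, j))) := (hb _ _ _).2 hne
        have h2 := (hβ' _).1 h1 β hβ
        exact nam_unread hvt j h2
      have hcol : ∀ t v c, F (b t) c = v → β' (.inr (t, !v, c)) := by
        intro t v c hc
        rw [hβ']
        intro β hβ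
        rintro ⟨h1, h2⟩
        rw [hX2 β hβ t h1, hc] at h2
        cases v <;> simp at h2
      constructor
      · refine Fm.holds_mono' ?_ ψ (hF b)
        rintro ⟨u, v⟩ hu
        cases u with
        | x i =>
          simp only [Vr.ev] at hu
          cases v <;> simp [trL, litP, zq, hu]
        | b t j =>
          simp only [Vr.ev] at hu
          simp only [trL, litP]
          rw [hb, hu]
          cases v <;> simp
        | a t c =>
          simp only [Vr.ev] at hu
          simp only [trL, litP]
          exact hcol t v c hu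
      · by_cases hbb : b false = b true
        · right
          intro c
          cases hc : F (b false) c with
          | true => exact Or.inl ⟨hcol false true c hc, hcol true true c (hbb ▸ hc)⟩
          | false => exact Or.inr ⟨hcol false false c hc, hcol true false c (hbb ▸ hc)⟩
        · left
          obtain ⟨j, hj⟩ := Function.ne_iff.1 hbb
          refine ⟨j, ?_⟩
          simp only [hb]
          cases h1 : b false j <;> cases h2 : b true j <;> simp_all)
  exact ⟨s, hs, s', hst, s'', hst'⟩


/-- the linear chain expresses the oracle problem -/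
theorem chain_iff_lin (hS : StStepSound) (hC : StStepComplete) (hB1 : StBasSound)
    (hB2 : StBasExists) (hB3 : StBasCell) (hB4 : StBasHon) {p k L : ℕ}
    (ψ : Fm (Vr p (L + 2) k × Bool)) (x : Fin p → Bool) :
    SysN L ψ (zq x) ↔ Orc ψ x :=
  ⟨chain_sound_lin hS hB1 hB3 _ x, chain_complete_lin hC hB1 hB2 hB4 _ x⟩

end Vale.Agent.P027.N
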