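import Vale.Agent.P027.H833.D.Red

set_option linter.all false

/-! Nondeterministic exponential time and polynomials over the rationals, uniformly. -/

namespace Vale.Agent.P027.N

open Vale.Agent.Lib.PolyTime Vale.Agent.P027.N.U Vale.Agent.P027.N.D

/-- oracle problems given by uniform formulas, as polynomials computed in polynomial time -/
theorem tm_of_orc (F : UFm) (Lb Kb : Bd) : ∃ f : List Bool → Poly,
    (∃ T : Turing.TM2ComputableInPolyTime (id : List Bool → List Bool) codeP f,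
      ∀ k, Finite (T.tm.Γ k)) ∧
    (∀ x, (toMv (f x)).totalDegree ≤ 4) ∧
    ∀ x, (Orc (F.fm x (Lb.ev [x.length]) (Kb.ev [x.length]) [x.length]) Fin.elim0 ↔
      HasZero (f x)) := by
  obtain ⟨g, hg⟩ := stGenF F Lb Kb
  refine ⟨g.poly, compileP' g, g.poly_degree, fun w => ?_⟩
  rw [← hg w]
  exact (g.poly_zero w).symm

theorem nexp_unif (M : NTM) (k : ℕ) : ∃ f : List Bool → Poly,
    (∃ T : Turing.TM2ComputableInPolyTime (id : List Bool → List Bool) codeP f,
      ∀ j, Finite (T.tm.Γ j)) ∧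
    (∀ x, (toMv (f x)).totalDegree ≤ 4) ∧
    ∀ x, (M.Accepts (fun i => x.get i) (2 ^ (x.length + 1) ^ (k + 1)) ↔ HasZero (f x)) := by
  obtain ⟨F, Lb, j, h⟩ := uni_tab M k
  obtain ⟨f, h1, h2, h3⟩ := tm_of_orc F Lb (.const j)
  refine ⟨f, h1, h2, fun x => ?_⟩
  rw [← h3 x, ← h x]
  rfl

end Vale.Agent.P027.N
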