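import Vale.Agent.P027.H833.Main

set_option linter.all false

/-! From elementary equations to one polynomial. -/

namespace Vale.Agent.P027.N

open MvPolynomial

/-- sum of the absolute values of the coefficients -/
noncomputable def nrm {α : Type} (F : MvPolynomial α ℤ) : ℕ :=
  ∑ m ∈ F.support, (F.coeff m).natAbs

lemma nrm_eq {α : Type} (F : MvPolynomial α ℤ) (S : Finset (α →₀ ℕ)) (h : F.support ⊆ S) :
    nrm F = ∑ m ∈ S, (F.coeff m).natAbs := by
  refine Finset.sum_subset h fun m _ hm => ?_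
  rw [MvPolynomial.notMem_support_iff.1 hm]; rfl

lemma nrm_add {α : Type} (F G : MvPolynomial α ℤ) : nrm (F + G) ≤ nrm F + nrm G := by
  classical
  rw [nrm_eq (F + G) (F.support ∪ G.support) MvPolynomial.support_add,
    nrm_eq F (F.support ∪ G.support) Finset.subset_union_left,
    nrm_eq G (F.support ∪ G.support) Finset.subset_union_right, ← Finset.sum_add_distrib]
  refine Finset.sum_le_sum fun m _ => ?_
  rw [coeff_add]
  exact Int.natAbs_add_le _ _

lemma nrm_monomial {α : Type} (s : α →₀ ℕ) (c : ℤ) : nrm (monomial s c) ≤ c.natAbs := by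
  classical
  rw [nrm_eq (monomial s c) {s} MvPolynomial.support_monomial_subset]
  simp

lemma nrm_zero {α : Type} : nrm (0 : MvPolynomial α ℤ) = 0 := by simp [nrm]

/-- the polynomial of an equation -/
noncomputable def Eqn.pol {α : Type} : Eqn α → MvPolynomial α ℤ
  | .one a => X a - 1
  | .add a b c => X a - X b - X c
  | .mul a b c => X a - X b * X c

lemma Eqn.pol_deg {α : Type} (e : Eqn α) : e.pol.totalDegree ≤ 2 := by
  cases e with
  | one a =>
    refine (totalDegree_sub _ _).trans ?_
    simp only [totalDegree_X, totalDegree_one]; norm_num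
  | add a b c =>
    refine (totalDegree_sub _ _).trans (max_le ((totalDegree_sub _ _).trans ?_) ?_)
    · simp only [totalDegree_X]; norm_num
    · simp only [totalDegree_X]; norm_num
  | mul a b c =>
    refine (totalDegree_sub _ _).trans (max_le ?_ ((totalDegree_mul _ _).trans ?_))
    · simp only [totalDegree_X]; norm_num
    · simp only [totalDegree_X]; norm_num

lemma Eqn.pol_eval {α : Type} (e : Eqn α) (v : α → ℚ) : aeval v e.pol = 0 ↔ e.Holds v := by
  cases e with
  | one a => simp [Eqn.pol, Eqn.Holds, sub_eq_zero]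
  | add a b c =>
    simp only [Eqn.pol, Eqn.Holds, map_sub, aeval_X]
    constructor <;> intro h <;> linarith
  | mul a b c =>
    simp only [Eqn.pol, Eqn.Holds, map_sub, map_mul, aeval_X]
    constructor <;> intro h <;> linarith

lemma nrm_XX {α : Type} (a b : α) (c : ℤ) : nrm (C c * (X a * X b)) ≤ c.natAbs := by
  have : (C c * (X a * X b) : MvPolynomial α ℤ) =
      monomial (Finsupp.single a 1 + Finsupp.single b 1) c := by
    rw [X, X, monomial_mul, C_mul_monomial]; simp
  rw [this]
  exact nrm_monomial _ _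

lemma nrm_X3 {α : Type} (a b d : α) (c : ℤ) : nrm (C c * (X a * X b * X d)) ≤ c.natAbs := by
  have : (C c * (X a * X b * X d) : MvPolynomial α ℤ) =
      monomial (Finsupp.single a 1 + Finsupp.single b 1 + Finsupp.single d 1) c := by
    rw [X, X, X, monomial_mul, monomial_mul, C_mul_monomial]; simp
  rw [this]
  exact nrm_monomial _ _

lemma nrm_X4 {α : Type} (a b d e : α) (c : ℤ) :
    nrm (C c * (X a * X b * X d * X e)) ≤ c.natAbs := by
  have : (C c * (X a * X b * X d * X e) : MvPolynomial α ℤ) =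
      monomial (Finsupp.single a 1 + Finsupp.single b 1 + Finsupp.single d 1 +
        Finsupp.single e 1) c := by
    rw [X, X, X, X, monomial_mul, monomial_mul, monomial_mul, C_mul_monomial]; simp
  rw [this]
  exact nrm_monomial _ _

lemma nrm_X1 {α : Type} (a : α) (c : ℤ) : nrm (C c * X a) ≤ c.natAbs := by
  have : (C c * X a : MvPolynomial α ℤ) = monomial (Finsupp.single a 1) c := by
    rw [X, C_mul_monomial]; simp
  rw [this]
  exact nrm_monomial _ _

lemma nrm_C {α : Type} (c : ℤ) : nrm (C c : MvPolynomial α ℤ) ≤ c.natAbs := nrm_monomial _ _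

lemma Eqn.pol_nrm {α : Type} (e : Eqn α) : nrm (e.pol ^ 2) ≤ 9 := by
  cases e with
  | one a =>
    have : ((Eqn.one a : Eqn α).pol ^ 2 : MvPolynomial α ℤ) =
        C 1 * (X a * X a) + (C (-2) * X a + C 1) := by
      simp only [Eqn.pol, map_one, map_neg, map_ofNat]; ring
    rw [this]
    have h1 := nrm_add (C 1 * (X a * X a) : MvPolynomial α ℤ) (C (-2) * X a + C 1)
    have h2 := nrm_add (C (-2) * X a : MvPolynomial α ℤ) (C 1)
    have h3 : _ ≤ 1 := nrm_XX a a 1
    have h4 : _ ≤ 2 := nrm_X1 a (-2)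
    have h5 : _ ≤ 1 := nrm_C (α := α) 1
    omega
  | add a b c =>
    have : ((Eqn.add a b c : Eqn α).pol ^ 2 : MvPolynomial α ℤ) =
        C 1 * (X a * X a) + (C 1 * (X b * X b) + (C 1 * (X c * X c) + (C (-2) * (X a * X b) +
          (C (-2) * (X a * X c) + C 2 * (X b * X c))))) := by
      simp only [Eqn.pol, map_one, map_neg, map_ofNat]; ring
    rw [this]
    have e1 := nrm_add (C 1 * (X a * X a) : MvPolynomial α ℤ) (C 1 * (X b * X b) +
      (C 1 * (X c * X c) + (C (-2) * (X a * X b) + (C (-2) * (X a * X c) + C 2 * (X b * X c)))))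
    have e2 := nrm_add (C 1 * (X b * X b) : MvPolynomial α ℤ)
      (C 1 * (X c * X c) + (C (-2) * (X a * X b) + (C (-2) * (X a * X c) + C 2 * (X b * X c))))
    have e3 := nrm_add (C 1 * (X c * X c) : MvPolynomial α ℤ)
      (C (-2) * (X a * X b) + (C (-2) * (X a * X c) + C 2 * (X b * X c)))
    have e4 := nrm_add (C (-2) * (X a * X b) : MvPolynomial α ℤ)
      (C (-2) * (X a * X c) + C 2 * (X b * X c))
    have e5 := nrm_add (C (-2) * (X a * X c) : MvPolynomial α ℤ) (C 2 * (X b * X c))
    have h1 : _ ≤ 1 := nrm_XX a a 1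
    have h2 : _ ≤ 1 := nrm_XX b b 1
    have h3 : _ ≤ 1 := nrm_XX c c 1
    have h4 : _ ≤ 2 := nrm_XX a b (-2)
    have h5 : _ ≤ 2 := nrm_XX a c (-2)
    have h6 : _ ≤ 2 := nrm_XX b c 2
    omega
  | mul a b c =>
    have : ((Eqn.mul a b c : Eqn α).pol ^ 2 : MvPolynomial α ℤ) =
        C 1 * (X a * X a) + (C (-2) * (X a * X b * X c) + C 1 * (X b * X c * X b * X c)) := by
      simp only [Eqn.pol, map_one, map_neg, map_ofNat]; ring
    rw [this]
    have e1 := nrm_add (C 1 * (X a * X a) : MvPolynomial α ℤ)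
      (C (-2) * (X a * X b * X c) + C 1 * (X b * X c * X b * X c))
    have e2 := nrm_add (C (-2) * (X a * X b * X c) : MvPolynomial α ℤ)
      (C 1 * (X b * X c * X b * X c))
    have h1 : _ ≤ 1 := nrm_XX a a 1
    have h2 : _ ≤ 2 := nrm_X3 a b c (-2)
    have h3 : _ ≤ 1 := nrm_X4 b c b c 1
    omega

/-- one polynomial for a system -/
noncomputable def sysPol {α : Type} (E : List (Eqn α)) : MvPolynomial α ℤ :=
  (E.map fun e => e.pol ^ 2).sum

lemma sysPol_deg {α : Type} (E : List (Eqn α)) : (sysPol E).totalDegree ≤ 4 := by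
  induction E with
  | nil => simp [sysPol]
  | cons e E ih =>
    have h1 : sysPol (e :: E) = e.pol ^ 2 + sysPol E := by simp [sysPol]
    rw [h1]
    refine (totalDegree_add _ _).trans (max_le ((totalDegree_pow _ _).trans ?_) ih)
    have := e.pol_deg
    omega

lemma sysPol_nrm {α : Type} (E : List (Eqn α)) : nrm (sysPol E) ≤ 9 * E.length := by
  induction E with
  | nil => simp [sysPol, nrm_zero]
  | cons e E ih =>
    have h1 : sysPol (e :: E) = e.pol ^ 2 + sysPol E := by simp [sysPol]
    rw [h1]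
    have h2 := nrm_add (e.pol ^ 2) (sysPol E)
    have h3 := e.pol_nrm
    simp only [List.length_cons]
    omega

lemma sysPol_nonneg {α : Type} (E : List (Eqn α)) (v : α → ℚ) : 0 ≤ aeval v (sysPol E) := by
  induction E with
  | nil => simp [sysPol]
  | cons e E ih =>
    have h1 : sysPol (e :: E) = e.pol ^ 2 + sysPol E := by simp [sysPol]
    rw [h1, map_add, map_pow]
    positivity

lemma sysPol_eval {α : Type} (E : List (Eqn α)) (v : α → ℚ) :
    aeval v (sysPol E) = 0 ↔ ∀ e ∈ E, e.Holds v := by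
  induction E with
  | nil => simp [sysPol]
  | cons e E ih =>
    have h1 : sysPol (e :: E) = e.pol ^ 2 + sysPol E := by simp [sysPol]
    rw [h1, map_add, map_pow, List.forall_mem_cons, ← ih, ← e.pol_eval v]
    have h2 := sysPol_nonneg E v
    have h3 : 0 ≤ (aeval v e.pol) ^ 2 := sq_nonneg _
    constructor
    · intro h
      have h4 : (aeval v e.pol) ^ 2 = 0 := by linarith
      exact ⟨by simpa using h4, by linarith⟩
    · rintro ⟨h4, h5⟩
      rw [h4, h5]; norm_num

/-- nondeterministic exponential time as polynomials over the rationals -/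
theorem nexp_pol (M : NTM) : ∃ C : ℕ, ∀ n N : ℕ, N ≤ 2 ^ n →
    ∃ (V : ℕ) (F : MvPolynomial (Fin N ⊕ Fin V) ℤ),
      V ≤ C * (n + N + 1) ^ 6 ∧ F.totalDegree ≤ 4 ∧
      ∑ m ∈ F.support, (F.coeff m).natAbs ≤ C * (n + N + 1) ^ 6 ∧
      ∀ x : Fin N → Bool,
        (∃ y : Fin V → ℚ, aeval (Sum.elim (fun i => if x i then 1 else 0) y) F = 0) ↔
          M.Accepts x (2 ^ n) := by
  obtain ⟨C, hC⟩ := nexp_sys M
  refine ⟨9 * C, fun n N hN => ?_⟩
  obtain ⟨V, E, hV, hE, h⟩ := hC n N hN
  refine ⟨V, sysPol E, ?_, sysPol_deg E, ?_, fun x => ?_⟩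
  · refine hV.trans ?_
    rw [mul_assoc]; omega
  · refine (sysPol_nrm E).trans ?_
    rw [mul_assoc]; omega
  · rw [← h x]
    exact exists_congr fun y => sysPol_eval E _

end Vale.Agent.P027.N
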