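import Vale.Agent.P027.H833.Chain

set_option linter.all false

/-! Soundness of the chain (module N6). -/

namespace Vale.Agent.P027.N

open Vale.Agent.P027 Vale.Agent.P027.Q

lemma cell_ne {I : Type} {m : I → ℤ} {q q' : ℕ} {β β' : I → Prop} (h : Cell m q β)
    (h' : Cell m q' β') (k : I) (hk : ¬ (β k ↔ β' k)) : q ≠ q' := by
  rintro rfl
  exact hk ((h.read k).symm.trans (h'.read k))

lemma gCp_bits {n : ℕ} {I J π : Type} {i : Ltr n → I} {j : Ltr n → J} {top : J} {β : I → Prop}
    {bit : J → Prop} {z : π → ℚ} (h : ∀ o, (gCp i j top o : Fm (Lit I J π)).holds (litP β bit z)) :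
    bit top ∧ ∀ a, bit (j a) ↔ β (i a) := by
  refine ⟨h none, fun a => ?_⟩
  have := h (some a)
  simp only [gCp, Fm.holds_or, Fm.holds_and, Fm.holds_lit, litP] at this
  tauto

lemma holds_gNv {n : ℕ} {I J π : Type} (i : Ltr n → I) (i0 : I) (t : Bool) (β : I → Prop)
    (bit : J → Prop) (z : π → ℚ) : (gNv i i0 t : Fm (Lit I J π)).holds (litP β bit z) ↔
      ∃ j, (β (i (t, false, j)) ↔ β (i (t, true, j))) := by
  unfold gNv
  rw [holds_lOr]
  constructor
  · rintro ⟨f, hf, h⟩
    obtain ⟨j, -, rfl⟩ := List.mem_map.1 hf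
    refine ⟨j, ?_⟩
    simp only [Fm.holds_or, Fm.holds_and, Fm.holds_lit, litP] at h
    tauto
  · rintro ⟨j, h⟩
    refine ⟨_, List.mem_map.2 ⟨j, List.mem_finRange j, rfl⟩, ?_⟩
    simp only [Fm.holds_or, Fm.holds_and, Fm.holds_lit, litP]
    tauto

lemma holds_gNe {n k : ℕ} {J π : Type} (β : Ic n k → Prop) (bit : J → Prop) (z : π → ℚ) :
    (gNe : Fm (Lit (Ic n k) J π)).holds (litP β bit z) ↔
      ∃ j, (β (.inl (.inr (false, true, j))) ∧ β (.inl (.inr (true, false, j)))) ∨
        (β (.inl (.inr (false, false, j))) ∧ β (.inl (.inr (true, true, j)))) := by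
  unfold gNe
  rw [holds_lOr]
  constructor
  · rintro ⟨f, hf, h⟩
    obtain ⟨j, -, rfl⟩ := List.mem_map.1 hf
    exact ⟨j, h⟩
  · rintro ⟨j, h⟩
    exact ⟨_, List.mem_map.2 ⟨j, List.mem_finRange j, rfl⟩, h⟩

lemma holds_gEq {n k : ℕ} {J π : Type} (β : Ic n k → Prop) (bit : J → Prop) (z : π → ℚ) :
    (gEq : Fm (Lit (Ic n k) J π)).holds (litP β bit z) ↔
      ∀ c, (β (.inr (false, false, c)) ∧ β (.inr (true, false, c))) ∨
        (β (.inr (false, true, c)) ∧ β (.inr (true, true, c))) := by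
  unfold gEq
  rw [holds_lAnd]
  constructor
  · intro h c
    exact h _ (List.mem_map.2 ⟨c, List.mem_finRange c, rfl⟩)
  · intro h f hf
    obtain ⟨c, -, rfl⟩ := List.mem_map.1 hf
    exact h c

lemma base_bits {n : ℕ} {π : Type} {z : π → ℚ} {bit : Ia n → Prop} (a : Ltr n)
    (h : ∀ o, (G0 o : Fm (Lit (Ib n) (Ia n) π)).holds
      (litP (fun i : Ib n => (eL n a : ℕ) + 1 ≤ (i : ℕ)) bit z)) :
    bit (.inl true) ∧ ∀ b, bit (.inr b) ↔ b ≠ a := by
  refine ⟨h none, fun b => ?_⟩
  have := h (some b)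
  simp only [G0, gIn, gNin, Fm.holds_or, Fm.holds_and, Fm.holds_lit, litP, Fin.val_succ,
    Fin.val_castSucc] at this
  have key : b = a ↔ (eL n a : ℕ) + 1 ≤ (eL n b : ℕ) + 1 ∧ ¬ (eL n a : ℕ) + 1 ≤ (eL n b : ℕ) := by
    constructor
    · rintro rfl; omega
    · rintro ⟨h1, h2⟩
      exact (eL n).injective (Fin.ext (by omega))
  rw [Ne, key]
  tauto

/-- soundness of the levels -/
theorem lvl_sound (hS : StStepSound) (hB1 : StBasSound) (hB3 : StBasCell) {n : ℕ} {π : Type}
    (z : π → ℚ) (hz : ∀ x, z x = 0 ∨ z x = 1) (l : ℕ) :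
    ∀ s : Ia n → ℚ, Lvl n z l s → ∃ m : Ia n → ℤ, (∀ k, Ix (m k) (s k)) ∧
      ∀ S : Finset (Ltr n), S.card = 2 ^ (l + 1) →
        ∃ q β, Cell m q β ∧ ∀ a, β (Sum.inr a) ↔ a ∉ S := by
  induction l with
  | zero =>
    rintro s ⟨s0, hbas, hst⟩
    obtain ⟨m', bit, hIx', hG, hC⟩ := hS (Ib n) (Ia n) (Option (Ltr n)) π (Sum.inl false) G0 z
      (fun i => 3 ^ (i : ℕ) * 5) s0 s (hB1 _ s0 hbas) hz hst
    refine ⟨m', hIx', fun S hSc => ?_⟩
    obtain ⟨a, a', hne, rfl⟩ := Finset.card_eq_two.1 (by simpa using hSc)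
    obtain ⟨q, hq⟩ := hB3 (2 * (2 * n)) ((eL n a : ℕ) + 1) (by omega) (by have := (eL n a).2; omega)
    obtain ⟨q', hq'⟩ := hB3 (2 * (2 * n)) ((eL n a' : ℕ) + 1) (by omega)
      (by have := (eL n a').2; omega)
    have hqq : q ≠ q' := by
      rintro rfl
      have h1 := (hq.read (eL n a).succ).symm.trans (hq'.read (eL n a).succ)
      have h2 := (hq.read (eL n a').succ).symm.trans (hq'.read (eL n a').succ)
      simp only [Fin.val_succ] at h1 h2
      exact hne ((eL n).injective (Fin.ext (by omega)))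
    obtain ⟨ht, hb⟩ := base_bits a (fun o => hG q _ hq o)
    obtain ⟨ht', hb'⟩ := base_bits a' (fun o => hG q' _ hq' o)
    obtain ⟨Q, hQ⟩ := hC q _ q' _ hq hq' hqq (.inl true) ht ht'
    refine ⟨Q, _, hQ, fun b => ?_⟩
    rw [hb, hb']
    simp
  | succ l ih =>
    rintro s ⟨s1, hs1, hst⟩
    obtain ⟨m, hm, hcell⟩ := ih s1 hs1
    obtain ⟨m', bit, hIx', hG, hC⟩ := hS (Ia n) (Ia n) (Option (Ltr n)) π (Sum.inl false) G1 z
      m s1 s hm hz hst
    refine ⟨m', hIx', fun S hSc => ?_⟩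
    obtain ⟨S1, hS1, hc1⟩ := Finset.exists_subset_card_eq (s := S) (n := 2 ^ (l + 1)) (by
      rw [hSc]; exact Nat.pow_le_pow_right (by norm_num) (by omega))
    have hc2 : (S \ S1).card = 2 ^ (l + 1) := by
      rw [Finset.card_sdiff_of_subset hS1, hSc, hc1, pow_succ 2 (l + 1)]; omega
    obtain ⟨q, β, hq, hβ⟩ := hcell S1 hc1
    obtain ⟨q', β', hq', hβ'⟩ := hcell (S \ S1) hc2
    have hne : ∃ a, a ∈ S1 := Finset.card_pos.1 (by rw [hc1]; positivity)
    obtain ⟨a, ha⟩ := hne
    have hqq : q ≠ q' := by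
      refine cell_ne hq hq' (Sum.inr a) ?_
      rw [hβ, hβ']
      simp [ha]
    obtain ⟨ht, hb⟩ := gCp_bits (fun o => hG q _ hq o)
    obtain ⟨ht', hb'⟩ := gCp_bits (fun o => hG q' _ hq' o)
    obtain ⟨Q, hQ⟩ := hC q _ q' _ hq hq' hqq (.inl true) ht ht'
    refine ⟨Q, _, hQ, fun b => ?_⟩
    rw [hb, hb', hβ, hβ']
    simp only [Finset.mem_sdiff]
    constructor
    · rintro ⟨h1, h2⟩ h3
      exact h2 ⟨h3, h1⟩
    · intro h
      exact ⟨fun h1 => h (hS1 h1), fun h1 => h h1.1⟩

/-- the letters of a name -/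
def nameS {n : ℕ} (t : Bool) (b : Fin n → Bool) : Finset (Ltr n) :=
  Finset.univ.image fun j => (t, b j, j)

lemma nameS_card {n : ℕ} (t : Bool) (b : Fin n → Bool) : (nameS t b).card = n := by
  unfold nameS
  rw [Finset.card_image_of_injective]
  · simp
  · intro i j h
    simpa using congrArg (fun a : Ltr n => a.2.2) h

lemma mem_nameS {n : ℕ} (t t' v : Bool) (b : Fin n → Bool) (j : Fin n) :
    (t', v, j) ∈ nameS t b ↔ t' = t ∧ v = b j := by
  unfold nameS
  simp only [Finset.mem_image, Finset.mem_univ, true_and, Prod.mk.injEq]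
  constructor
  · rintro ⟨i, h1, h2, rfl⟩; exact ⟨h1.symm, h2.symm⟩
  · rintro ⟨rfl, rfl⟩; exact ⟨j, rfl, rfl, rfl⟩

/-- soundness of the chain -/
theorem chain_sound (hS : StStepSound) (hB1 : StBasSound) (hB3 : StBasCell) {p k L : ℕ}
    (ψ : Fm (Vr p (2 ^ (L + 1)) k × Bool)) (x : Fin p → Bool) (h : Sys L ψ (zq x)) :
    Orc ψ x := by
  obtain ⟨s, hs, s', h2, s'', h3⟩ := h
  obtain ⟨m, hm, hcell⟩ := lvl_sound hS hB1 hB3 (zq x) (zq_or x) L s hs
  obtain ⟨m', bit, hm', hG, hC⟩ := hS _ _ _ _ _ G2 (zq x) m s s' hm (zq_or x) h2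
  obtain ⟨m'', bit', -, hG', -⟩ := hS _ _ _ _ _ (G3 ψ) (zq x) m' s' s'' hm' (zq_or x) h3
  choose q β hc hβ using fun (t : Bool) (b : Fin (2 ^ (L + 1)) → Bool) =>
    hcell (nameS t b) (nameS_card t b)
  -- the letters
  have hlet : ∀ t b, bit (q t b) (.inl (.inl true)) ∧
      ∀ a, bit (q t b) (.inl (.inr a)) ↔ a ∉ nameS t b := by
    intro t b
    obtain ⟨h1, h2⟩ := gCp_bits (fun o => hG (q t b) _ (hc t b) (.inl o))
    exact ⟨h1, fun a => (h2 a).trans (hβ t b a)⟩
  -- the colours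
  have hcol : ∀ t b c, ¬ bit (q t b) (.inr (t, false, c)) ∨ ¬ bit (q t b) (.inr (t, true, c)) := by
    intro t b c
    have := hG (q t b) _ (hc t b) (.inr (t, c))
    simp only [G2, Fm.holds_or, holds_gNv, Fm.holds_lit, litP] at this
    rcases this with ⟨j, hj⟩ | h
    · rw [hβ, hβ, mem_nameS, mem_nameS] at hj
      cases hb : b j <;> simp [hb] at hj
    · exact h
  classical
  let A : Bool → (Fin (2 ^ (L + 1)) → Bool) → Fin k → Bool := fun t b c =>
    decide (bit (q t b) (.inr (t, false, c)))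
  have hA : ∀ t b c v, bit (q t b) (.inr (t, !v, c)) → A t b c = v := by
    intro t b c v hv
    cases v with
    | true => simpa [A] using hv
    | false =>
      rcases hcol t b c with h | h
      · simpa [A] using h
      · exact absurd hv h
  -- the cell of a pair of names
  have hpair : ∀ b : Bool → Fin (2 ^ (L + 1)) → Bool, ∃ Q, Cell m' Q (fun j =>
      bit (q false (b false)) j ∧ bit (q true (b true)) j) := by
    intro b
    refine hC _ _ _ _ (hc false (b false)) (hc true (b true)) ?_ (.inl (.inl true))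
      (hlet _ _).1 (hlet _ _).1
    have j : Fin (2 ^ (L + 1)) := ⟨0, by positivity⟩
    refine cell_ne (hc false (b false)) (hc true (b true)) (Sum.inr (false, b false j, j)) ?_
    rw [hβ, hβ, mem_nameS, mem_nameS]
    simp
  -- the final check
  have hfin : ∀ b : Bool → Fin (2 ^ (L + 1)) → Bool,
      ψ.holds (fun u => Vr.ev x b (fun t => A t (b t)) u.1 = u.2) ∧
      ((b false ≠ b true) ∨ A false (b false) = A true (b true)) := by
    intro b
    obtain ⟨Q, hQ⟩ := hpair b
    have hchk := hG' Q _ hQ ()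
    have hlt : ∀ t v j, (bit (q false (b false)) (.inl (.inr (t, v, j))) ∧
        bit (q true (b true)) (.inl (.inr (t, v, j)))) ↔ v ≠ b t j := by
      intro t v j
      rw [(hlet _ _).2, (hlet _ _).2, mem_nameS, mem_nameS]
      cases t <;> simp
    simp only [G3, Fm.holds_or, Fm.holds_and, holds_gNv, holds_gNe, holds_gEq, Fm.holds_map,
      hlt] at hchk
    rcases hchk with ⟨j, hj⟩ | ⟨j, hj⟩ | ⟨h1, h2⟩
    · cases hb : b false j <;> simp [hb] at hj
    · cases hb : b true j <;> simp [hb] at hj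
    constructor
    · refine Fm.holds_mono' ?_ ψ h1
      rintro ⟨u, v⟩ hu
      cases u with
      | x i =>
        cases v
        · simp only [trL, litP, zq] at hu
          simp only [Vr.ev]
          by_contra hx
          simp [hx] at hu
        · simp only [trL, litP, zq] at hu
          simp only [Vr.ev]
          by_contra hx
          simp [hx] at hu
      | b t j =>
        simp only [trL, litP] at hu
        rw [hlt] at hu
        simp only [Vr.ev]
        cases v <;> cases hb : b t j <;> simp_all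
      | a t c =>
        simp only [trL, litP] at hu
        simp only [Vr.ev]
        cases t
        · exact hA _ _ _ _ hu.1
        · exact hA _ _ _ _ hu.2
    · rcases h2 with ⟨j, hj⟩ | h2
      · left
        intro hbb
        rw [hbb] at hj
        cases hb : b true j <;> simp [hb] at hj
      · right
        funext c
        rcases h2 c with ⟨⟨h4, h5⟩, ⟨h6, h7⟩⟩ | ⟨⟨h4, h5⟩, ⟨h6, h7⟩⟩
        · rw [hA false (b false) c true h4, hA true (b true) c true h7]
        · rw [hA false (b false) c false h4, hA true (b true) c false h7]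
  have hAA : ∀ b, A false b = A true b := by
    intro b
    rcases (hfin (fun _ => b)).2 with h | h
    · exact absurd rfl h
    · exact h
  refine ⟨A false, fun b => ?_⟩
  have := (hfin b).1
  refine Fm.holds_mono' ?_ ψ this
  rintro ⟨u, v⟩ hu
  cases u with
  | x i => exact hu
  | b t j => exact hu
  | a t c =>
    simp only [Vr.ev] at hu ⊢
    cases t
    · exact hu
    · rw [hAA]; exact hu

end Vale.Agent.P027.N
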