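import Vale.Agent.P027.H833.Bf
import Vale.Agent.P027.H833.Ntm

set_option linter.all false

/-! The oracle problem of a machine: tableaux as oracles. -/

namespace Vale.Agent.P027.N

instance (M : NTM) : Nonempty (Ct M) :=
  ⟨(M.blank, .l, M.start, M.blank, M.start, M.blank, .stay)⟩

/-- contents are coded by bits -/
lemma exists_dec (M : NTM) :
    ∃ (K : ℕ) (dec : (Fin (K + 1) → Bool) → Ct M), Function.Surjective dec := by
  classical
  haveI : Fintype (Ct M) := Fintype.ofFinite _
  refine ⟨Fintype.card (Ct M), ?_⟩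
  let f : Ct M → (Fin (Fintype.card (Ct M) + 1) → Bool) := fun c i =>
    decide ((Fintype.equivFin (Ct M) c : ℕ) = i)
  have hf : Function.Injective f := by
    intro c c' h
    have h1 := congrFun h (Fin.castSucc (Fintype.equivFin (Ct M) c'))
    simp only [f, Fin.val_castSucc, decide_true, decide_eq_true_eq] at h1
    exact (Fintype.equivFin (Ct M)).injective (Fin.ext h1)
  exact ⟨Function.invFun f, Function.invFun_surjective hf⟩

section

variable {M : NTM} {K : ℕ} (dec : (Fin (K + 1) → Bool) → Ct M)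

/-- formula for a relation between the contents at the two names -/
noncomputable def rF (R : Ct M → Ct M → Prop) : BF (Bool × Fin (K + 1)) :=
  Classical.choose (exists_bf (V := Bool × Fin (K + 1))
    (fun e => R (dec fun c => e (false, c)) (dec fun c => e (true, c))))

lemma evB_rF (R : Ct M → Ct M → Prop) (e : Bool × Fin (K + 1) → Bool) :
    evB e (rF dec R) ↔ R (dec fun c => e (false, c)) (dec fun c => e (true, c)) :=
  Classical.choose_spec (exists_bf (V := Bool × Fin (K + 1))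
    (fun e => R (dec fun c => e (false, c)) (dec fun c => e (true, c)))) e

/-- the same in the variables of the oracle problem -/
noncomputable def aF (p m : ℕ) (R : Ct M → Ct M → Prop) : BF (Vr p m (K + 1)) :=
  (rF dec R).map fun u => (Vr.a u.1.1 u.1.2, u.2)

lemma evB_aF {p m : ℕ} (R : Ct M → Ct M → Prop) (x : Fin p → Bool) (b : Bool → Fin m → Bool)
    (a : Bool → Fin (K + 1) → Bool) :
    evB (Vr.ev x b a) (aF dec p m R) ↔ R (dec (a false)) (dec (a true)) := by
  unfold aF
  rw [evB_map (fun v : Bool × Fin (K + 1) => (Vr.a v.1 v.2 : Vr p m (K + 1)))]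
  exact evB_rF dec R _

lemma size_aF {p m : ℕ} (R : Ct M → Ct M → Prop) : (aF dec p m R).size = (rF dec R).size := by
  simp [aF]

/-- time bits -/
def tI {N n k : ℕ} (t : Bool) : Fin n → Vr N (n + (n + 1)) k := fun j => .b t (Fin.castAdd (n + 1) j)

/-- position bits -/
def sI {N n k : ℕ} (t : Bool) : Fin (n + 1) → Vr N (n + (n + 1)) k := fun j => .b t (Fin.natAdd n j)

/-- some variable -/
def v0 {N n k : ℕ} : Vr N (n + (n + 1)) k := .b false (Fin.natAdd n 0)

/-- constraint for an input bit -/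
noncomputable def fI (n N : ℕ) (i : Fin N) (t : Bool) : BF (Vr N (n + (n + 1)) (K + 1)) :=
  bImp (.and (.lit (.x i, t)) (.and (conF v0 n (tI false) 0)
    (conF v0 (n + 1) (sI false) (2 ^ n + (i : ℕ))))) (aF dec _ _ fun c _ => c.1 = M.enc t)

/-- the other constraints -/
noncomputable def fL (n N : ℕ) : List (BF (Vr N (n + (n + 1)) (K + 1))) :=
  [ aF dec _ _ (fun c _ => vU c),
    bImp (.and (eqF v0 n (tI false) (tI true)) (sucF v0 (n + 1) (sI false) (sI true)))
      (aF dec _ _ vH),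
    bImp (.and (sucF v0 n (tI false) (tI true)) (eqF v0 (n + 1) (sI false) (sI true)))
      (aF dec _ _ vV),
    bImp (conF v0 (n + 1) (sI false) 0) (aF dec _ _ fun c _ => c.2.1 ≠ .r),
    bImp (conF v0 (n + 1) (sI false) (2 ^ (n + 1) - 1)) (aF dec _ _ fun c _ => c.2.1 ≠ .l),
    bImp (.and (conF v0 n (tI false) 0) (conF v0 (n + 1) (sI false) (2 ^ n)))
      (aF dec _ _ fun c _ => c.2.1 = .h ∧ c.2.2.1 = M.start),
    bImp (.and (conF v0 n (tI false) 0) (bAnd v0 ((List.finRange N).map fun i : Fin N =>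
      bNeg (conF v0 (n + 1) (sI false) (2 ^ n + (i : ℕ)))))) (aF dec _ _ fun c _ => c.1 = M.blank),
    bImp (conF v0 n (tI false) (2 ^ n - 1)) (aF dec _ _ fun c _ => c.2.2.1 = M.acc) ]

/-- the formula of the oracle problem of a machine -/
noncomputable def tabF (n N : ℕ) : BF (Vr N (n + (n + 1)) (K + 1)) :=
  .and (bAnd v0 (fL dec n N)) (bAnd v0 ((List.finRange N).map fun i =>
    .and (fI dec n N i true) (fI dec n N i false)))

variable {n N : ℕ}

/-- the time of a name -/
def tvl (u : Fin (n + (n + 1)) → Bool) : ℕ := bv n (fun j => u (Fin.castAdd (n + 1) j))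

/-- the position of a name -/
def svl (u : Fin (n + (n + 1)) → Bool) : ℕ := bv (n + 1) (fun j => u (Fin.natAdd n j))

lemma tvl_lt (u : Fin (n + (n + 1)) → Bool) : tvl u < 2 ^ n := bv_lt _ _

lemma svl_lt (u : Fin (n + (n + 1)) → Bool) : svl u < 2 ^ (n + 1) := bv_lt _ _

/-- the name of a cell -/
def nm (n T S : ℕ) : Fin (n + (n + 1)) → Bool := Fin.append (bi n T) (bi (n + 1) S)

lemma tvl_nm {T S : ℕ} (hT : T < 2 ^ n) : tvl (nm n T S) = T := by
  unfold tvl nm
  simp only [Fin.append_left]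
  exact bv_bi n T hT

lemma svl_nm {T S : ℕ} (hS : S < 2 ^ (n + 1)) : svl (nm n T S) = S := by
  unfold svl nm
  simp only [Fin.append_right]
  exact bv_bi (n + 1) S hS

variable (x : Fin N → Bool) (b : Bool → Fin (n + (n + 1)) → Bool) (a : Bool → Fin (K + 1) → Bool)

/-- semantics of the formula -/
structure Sem : Prop where
  uni : vU (dec (a false))
  hor : tvl (b true) = tvl (b false) → svl (b true) = svl (b false) + 1 →
    vH (dec (a false)) (dec (a true))
  ver : tvl (b true) = tvl (b false) + 1 → svl (b true) = svl (b false) →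
    vV (dec (a false)) (dec (a true))
  lft : svl (b false) = 0 → (dec (a false)).2.1 ≠ .r
  rgt : svl (b false) = 2 ^ (n + 1) - 1 → (dec (a false)).2.1 ≠ .l
  hed : tvl (b false) = 0 → svl (b false) = 2 ^ n →
    (dec (a false)).2.1 = .h ∧ (dec (a false)).2.2.1 = M.start
  blk : tvl (b false) = 0 → (∀ i : Fin N, svl (b false) ≠ 2 ^ n + (i : ℕ)) →
    (dec (a false)).1 = M.blank
  acc : tvl (b false) = 2 ^ n - 1 → (dec (a false)).2.2.1 = M.acc
  inp : ∀ i : Fin N, tvl (b false) = 0 → svl (b false) = 2 ^ n + (i : ℕ) →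
    (dec (a false)).1 = M.enc (x i)

lemma evB_tabF (hN : N ≤ 2 ^ n) : evB (Vr.ev x b a) (tabF dec n N) ↔ Sem dec x b a := by
  have hp : (2 : ℕ) ^ (n + 1) = 2 * 2 ^ n := by ring
  have hpos : 0 < 2 ^ n := by positivity
  have ht : ∀ s < 2 ^ n, evB (Vr.ev x b a) (conF v0 n (tI false) s) ↔ tvl (b false) = s :=
    fun s hs => evB_conF _ _ n _ s hs
  have hs : ∀ s < 2 ^ (n + 1), evB (Vr.ev x b a) (conF v0 (n + 1) (sI false) s) ↔
      svl (b false) = s := fun s hs => evB_conF _ _ (n + 1) _ s hs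
  have het : evB (Vr.ev x b a) (eqF v0 n (tI false) (tI true)) ↔ tvl (b false) = tvl (b true) :=
    evB_eqF _ _ n _ _
  have hes : evB (Vr.ev x b a) (eqF v0 (n + 1) (sI false) (sI true)) ↔
      svl (b false) = svl (b true) := evB_eqF _ _ (n + 1) _ _
  have hst : evB (Vr.ev x b a) (sucF v0 n (tI false) (tI true)) ↔
      tvl (b true) = tvl (b false) + 1 := evB_sucF _ _ n _ _
  have hss : evB (Vr.ev x b a) (sucF v0 (n + 1) (sI false) (sI true)) ↔
      svl (b true) = svl (b false) + 1 := evB_sucF _ _ (n + 1) _ _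
  have hI : ∀ (i : Fin N) (t : Bool), evB (Vr.ev x b a) (fI dec n N i t) ↔
      (x i = t → tvl (b false) = 0 → svl (b false) = 2 ^ n + (i : ℕ) →
        (dec (a false)).1 = M.enc t) := by
    intro i t
    have hi := i.2
    unfold fI
    rw [evB_imp, evB_and, evB_and, evB_lit, ht 0 hpos, hs _ (by omega), evB_aF]
    simp only [Vr.ev, and_imp]
  have hB : evB (Vr.ev x b a) (bAnd v0 ((List.finRange N).map fun i : Fin N =>
      bNeg (conF v0 (n + 1) (sI false) (2 ^ n + (i : ℕ))))) ↔
      ∀ i : Fin N, svl (b false) ≠ 2 ^ n + (i : ℕ) := by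
    rw [evB_bAnd]
    constructor
    · intro h i
      have hi := i.2
      have := h _ (List.mem_map.2 ⟨i, List.mem_finRange i, rfl⟩)
      rwa [evB_neg, hs _ (by omega)] at this
    · intro h f hf
      obtain ⟨i, -, rfl⟩ := List.mem_map.1 hf
      have hi := i.2
      rw [evB_neg, hs _ (by omega)]
      exact h i
  unfold tabF
  rw [evB_and, evB_bAnd, evB_bAnd]
  have hfL : (∀ f ∈ fL dec n N, evB (Vr.ev x b a) f) ↔
      (vU (dec (a false)) ∧
      (tvl (b false) = tvl (b true) ∧ svl (b true) = svl (b false) + 1 →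
        vH (dec (a false)) (dec (a true))) ∧
      (tvl (b true) = tvl (b false) + 1 ∧ svl (b false) = svl (b true) →
        vV (dec (a false)) (dec (a true))) ∧
      (svl (b false) = 0 → (dec (a false)).2.1 ≠ .r) ∧
      (svl (b false) = 2 ^ (n + 1) - 1 → (dec (a false)).2.1 ≠ .l) ∧
      (tvl (b false) = 0 ∧ svl (b false) = 2 ^ n →
        (dec (a false)).2.1 = .h ∧ (dec (a false)).2.2.1 = M.start) ∧
      (tvl (b false) = 0 ∧ (∀ i : Fin N, svl (b false) ≠ 2 ^ n + (i : ℕ)) →
        (dec (a false)).1 = M.blank) ∧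
      (tvl (b false) = 2 ^ n - 1 → (dec (a false)).2.2.1 = M.acc)) := by
    unfold fL
    simp only [List.forall_mem_cons, List.not_mem_nil, false_imp_iff, implies_true, and_true]
    rw [evB_imp, evB_imp, evB_imp, evB_imp, evB_imp, evB_imp, evB_imp, evB_and, evB_and, evB_and,
      evB_and, hB, het, hes, hst, hss, ht 0 hpos, ht _ (by omega), hs 0 (by omega),
      hs (2 ^ (n + 1) - 1) (by omega), hs (2 ^ n) (by omega)]
    simp only [evB_aF]
  rw [hfL]
  constructor
  · rintro ⟨⟨h1, h2, h3, h4, h5, h6, h7, h8⟩, h9⟩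
    refine ⟨h1, fun p q => h2 ⟨p.symm, q⟩, fun p q => h3 ⟨p, q.symm⟩, h4, h5,
      fun p q => h6 ⟨p, q⟩, fun p q => h7 ⟨p, q⟩, h8, fun i p q => ?_⟩
    have := h9 _ (List.mem_map.2 ⟨i, List.mem_finRange i, rfl⟩)
    rw [evB_and, hI, hI] at this
    cases hx : x i
    · exact this.2 hx p q
    · exact this.1 hx p q
  · rintro ⟨h1, h2, h3, h4, h5, h6, h7, h8, h9⟩
    refine ⟨⟨h1, fun p => h2 p.1.symm p.2, fun p => h3 p.1 p.2.symm, h4, h5,
      fun p => h6 p.1 p.2, fun p => h7 p.1 p.2, h8⟩, fun f hf => ?_⟩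
    obtain ⟨i, -, rfl⟩ := List.mem_map.1 hf
    rw [evB_and, hI, hI]
    exact ⟨fun hx p q => hx ▸ h9 i p q, fun hx p q => hx ▸ h9 i p q⟩

end

/-- the oracle problem of a machine -/
theorem orc_tab {M : NTM} {K : ℕ} {dec : (Fin (K + 1) → Bool) → Ct M}
    (hdec : Function.Surjective dec) {n N : ℕ} (hN : N ≤ 2 ^ n) (x : Fin N → Bool) :
    Orc (tabF dec n N) x ↔ M.Accepts x (2 ^ n) := by
  have hp : (2 : ℕ) ^ (n + 1) = 2 * 2 ^ n := by ring
  have hpos : 0 < 2 ^ n := by positivity
  rw [← tabl_iff hN x]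
  constructor
  · rintro ⟨A, hA⟩
    have hA' : ∀ b : Bool → Fin (n + (n + 1)) → Bool, Sem dec x b (fun t => A (b t)) := fun b =>
      (evB_tabF dec x b _ hN).1 (hA b)
    have h2 : ∀ T S T' S', Sem dec x (fun t => cond t (nm n T' S') (nm n T S))
        (fun t => A (cond t (nm n T' S') (nm n T S))) := fun T S T' S' => hA' _
    refine ⟨fun T S => dec (A (nm n T S)), ?_, ?_, ?_, ?_, ?_, ?_, ?_, ?_, ?_⟩
    · intro T hT S hS
      exact (h2 T S T S).uni
    · intro T hT S hS
      refine (h2 T S T (S + 1)).hor ?_ ?_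
      · simp only [cond_true, cond_false]; rw [tvl_nm hT, tvl_nm hT]
      · simp only [cond_true, cond_false]; rw [svl_nm hS, svl_nm (by omega)]
    · intro T hT S hS
      refine (h2 T S (T + 1) S).ver ?_ ?_
      · simp only [cond_true, cond_false]; rw [tvl_nm hT, tvl_nm (by omega)]
      · simp only [cond_true, cond_false]; rw [svl_nm hS, svl_nm hS]
    · intro T hT
      exact (h2 T 0 T 0).lft (svl_nm (by omega))
    · intro T hT
      exact (h2 T (2 ^ (n + 1) - 1) T 0).rgt (svl_nm (by omega))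
    · exact (h2 0 (2 ^ n) 0 0).hed (tvl_nm hpos) (svl_nm (by omega))
    · intro i
      have hi := i.2
      exact (h2 0 (2 ^ n + (i : ℕ)) 0 0).inp i (tvl_nm hpos) (svl_nm (by omega))
    · intro S hS hi
      refine (h2 0 S 0 0).blk (tvl_nm hpos) ?_
      intro i
      simp only [cond_false]
      rw [svl_nm hS]
      exact hi i
    · intro S hS
      exact (h2 (2 ^ n - 1) S 0 0).acc (tvl_nm (by omega))
  · rintro ⟨c, hc⟩
    refine ⟨fun u => Function.surjInv hdec (c (tvl u) (svl u)), fun b => ?_⟩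
    refine (evB_tabF dec x b _ hN).2 ?_
    have hd : ∀ y, dec (Function.surjInv hdec y) = y := Function.surjInv_eq hdec
    have ht := tvl_lt (b false)
    have hs := svl_lt (b false)
    have ht' := tvl_lt (b true)
    have hs' := svl_lt (b true)
    constructor
    · rw [hd]; exact hc.uni _ ht _ hs
    · intro h1 h2
      rw [hd, hd, h1, h2]
      exact hc.hor _ ht _ (by omega)
    · intro h1 h2
      rw [hd, hd, h1, h2]
      exact hc.ver _ (by omega) _ hs
    · intro h1
      rw [hd, h1]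
      exact hc.lft _ ht
    · intro h1
      rw [hd, h1]
      exact hc.rgt _ ht
    · intro h1 h2
      rw [hd, h1, h2]
      exact hc.hed
    · intro h1 h2
      rw [hd, h1]
      exact hc.blk _ hs h2
    · intro h1
      rw [hd, h1]
      exact hc.acc _ hs
    · intro i h1 h2
      rw [hd, h1, h2]
      exact hc.inp i

/-- the size of the formula -/
theorem size_tabF {M : NTM} {K : ℕ} (dec : (Fin (K + 1) → Bool) → Ct M) :
    ∃ C : ℕ, ∀ n N : ℕ, (tabF dec n N).size ≤ C * (n + N + 1) ^ 2 := by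
  obtain ⟨c, h1, h2, h3, h4, h5, h6, h7, h8, h9⟩ : ∃ c : ℕ,
      (rF dec (fun c _ => vU c)).size ≤ c ∧ (rF dec vH).size ≤ c ∧ (rF dec vV).size ≤ c ∧
      (rF dec (fun c _ => c.2.1 ≠ .r)).size ≤ c ∧ (rF dec (fun c _ => c.2.1 ≠ .l)).size ≤ c ∧
      (rF dec (fun c _ => c.2.1 = .h ∧ c.2.2.1 = M.start)).size ≤ c ∧
      (rF dec (fun c _ => c.1 = M.blank)).size ≤ c ∧
      (rF dec (fun c _ => c.2.2.1 = M.acc)).size ≤ c ∧
      ∀ t : Bool, (rF dec (fun c _ => c.1 = M.enc t)).size ≤ c := by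
    refine ⟨(rF dec (fun c _ => vU c)).size + (rF dec vH).size + (rF dec vV).size +
      (rF dec (fun c _ => c.2.1 ≠ .r)).size + (rF dec (fun c _ => c.2.1 ≠ .l)).size +
      (rF dec (fun c _ => c.2.1 = .h ∧ c.2.2.1 = M.start)).size +
      (rF dec (fun c _ => c.1 = M.blank)).size + (rF dec (fun c _ => c.2.2.1 = M.acc)).size +
      (rF dec (fun c _ => c.1 = M.enc true)).size + (rF dec (fun c _ => c.1 = M.enc false)).size,
      ?_, ?_, ?_, ?_, ?_, ?_, ?_, ?_, ?_⟩
    all_goals first | omega | skip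
    intro t; cases t <;> omega
  refine ⟨8 * (c + 100) + 2 * (c + 100) + 50, fun n N => ?_⟩
  set X := n + N + 1 with hX
  have hn : n + 1 ≤ X := by omega
  have hN : N ≤ X := by omega
  have hX1 : 1 ≤ X := by omega
  have hX2 : X ≤ X ^ 2 := by nlinarith
  have hq1 : n ^ 2 ≤ X ^ 2 := Nat.pow_le_pow_left (by omega) 2
  have hq2 : (n + 1) ^ 2 ≤ X ^ 2 := Nat.pow_le_pow_left (by omega) 2
  have hNX : N * X ≤ X ^ 2 := by nlinarith
  have hf1 : ∀ f ∈ fL dec n N, f.size ≤ c + 90 * X ^ 2 := by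
    unfold fL
    have hB : (bAnd v0 ((List.finRange N).map fun i : Fin N =>
        (bNeg (conF v0 (n + 1) (sI false) (2 ^ n + (i : ℕ))) :
          BF (Vr N (n + (n + 1)) (K + 1))))).size ≤ 10 * X ^ 2 := by
      refine (size_bAnd_le _ _ (2 * (n + 1) + 3) ?_).trans ?_
      · intro f hf
        obtain ⟨i, -, rfl⟩ := List.mem_map.1 hf
        rw [size_neg, size_conF]
      · rw [List.length_map, List.length_finRange]
        have h10 : N * (2 * (n + 1) + 3 + 1) ≤ X * (6 * X) := Nat.mul_le_mul hN (by omega)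
        have h11 : X * (6 * X) = 6 * X ^ 2 := by ring
        omega
    simp only [List.forall_mem_cons, List.not_mem_nil, false_imp_iff, implies_true, and_true]
    simp only [size_imp, Fm.size, size_aF, size_eqF, size_sucF, size_conF]
    generalize X ^ 2 = Y at *
    generalize n ^ 2 = Z1 at *
    generalize (n + 1) ^ 2 = Z2 at *
    refine ⟨?_, ?_, ?_, ?_, ?_, ?_, ?_, ?_⟩ <;> omega
  have hf2 : ∀ f ∈ ((List.finRange N).map fun i =>
      (Fm.and (fI dec n N i true) (fI dec n N i false))), f.size ≤ (2 * c + 60) * X := by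
    intro f hf
    obtain ⟨i, -, rfl⟩ := List.mem_map.1 hf
    unfold fI
    simp only [size_imp, Fm.size, size_aF, size_conF]
    have h10 := h9 true
    have h11 := h9 false
    have h12 : (2 * c + 60) * X = 2 * (c * X) + 60 * X := by ring
    have h13 : c ≤ c * X := Nat.le_mul_of_pos_right _ hX1
    rw [h12]
    omega
  have e1 := size_bAnd_le v0 _ _ hf1
  have e2 := size_bAnd_le v0 _ _ hf2
  have e3 : (fL dec n N).length = 8 := rfl
  rw [e3] at e1
  rw [List.length_map, List.length_finRange] at e2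
  have e4 : (tabF dec n N).size = (bAnd v0 (fL dec n N)).size + (bAnd v0 ((List.finRange N).map
      fun i => Fm.and (fI dec n N i true) (fI dec n N i false))).size + 1 := rfl
  rw [e4]
  have e5 : N * ((2 * c + 60) * X + 1) ≤ X * ((2 * c + 61) * X) := by
    refine Nat.mul_le_mul hN ?_
    have h12 : (2 * c + 61) * X = (2 * c + 60) * X + X := by ring
    omega
  have e6 : X * ((2 * c + 61) * X) = 2 * (c * X ^ 2) + 61 * X ^ 2 := by ring
  have e7 : (8 * (c + 100) + 2 * (c + 100) + 50) * X ^ 2 = 10 * (c * X ^ 2) + 1050 * X ^ 2 := by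
    ring
  have e8 : c ≤ c * X ^ 2 := Nat.le_mul_of_pos_right _ (by positivity)
  have e9 : 1 ≤ X ^ 2 := Nat.one_le_pow _ _ hX1
  rw [e7]
  rw [e6] at e5
  omega

/-- NEXP machines as oracle problems -/
theorem exists_tab (M : NTM) : ∃ (K C : ℕ), ∀ n N : ℕ, N ≤ 2 ^ n →
    ∃ ψ : Fm (Vr N (n + (n + 1)) K × Bool), ψ.size ≤ C * (n + N + 1) ^ 2 ∧
      ∀ x : Fin N → Bool, Orc ψ x ↔ M.Accepts x (2 ^ n) := by
  obtain ⟨K, dec, hdec⟩ := exists_dec M
  obtain ⟨C, hC⟩ := size_tabF dec
  exact ⟨K + 1, C, fun n N hN => ⟨tabF dec n N, hC n N, fun x => orc_tab hdec hN x⟩⟩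

end Vale.Agent.P027.N
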