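import Vale.Agent.P027.N.U.Ufm
import Vale.Agent.P027.H833.Tab
import Vale.Agent.P027.H833.Bits

set_option linter.all false

/-! The tableau of a machine as a uniform formula (module U3). -/

namespace Vale.Agent.P027.N

/-- constraints for two cells `(T, S)`, `(T', S')` with contents `c`, `c'` -/
structure SemG {M : NTM} (n : ℕ) {N : ℕ} (x : Fin N → Bool) (T S T' S' : ℕ) (c c' : Ct M) :
    Prop where
  uni : vU c
  hor : T' = T → S' = S + 1 → vH c c'
  ver : T' = T + 1 → S' = S → vV c c'
  lft : S = 0 → c.2.1 ≠ .r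
  rgt : S = 2 ^ (n + 1) - 1 → c.2.1 ≠ .l
  hed : T = 0 → S = 2 ^ n → c.2.1 = .h ∧ c.2.2.1 = M.start
  blk : T = 0 → (∀ i : Fin N, S ≠ 2 ^ n + (i : ℕ)) → c.1 = M.blank
  acc : T = 2 ^ n - 1 → c.2.2.1 = M.acc
  inp : ∀ i : Fin N, T = 0 → S = 2 ^ n + (i : ℕ) → c.1 = M.enc (x i)

/-- oracle problems that describe tableaux -/
theorem orc_gen {M : NTM} {K : ℕ} {dec : (Fin K → Bool) → Ct M}
    (hdec : Function.Surjective dec) {n N p m : ℕ} (hN : N ≤ 2 ^ n) (x : Fin N → Bool)
    (ψ : Fm (Vr p m K × Bool)) (x0 : Fin p → Bool) (tv sv : (Fin m → Bool) → ℕ)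
    (ht : ∀ u, tv u < 2 ^ n) (hs : ∀ u, sv u < 2 ^ (n + 1))
    (hsur : ∀ T < 2 ^ n, ∀ S < 2 ^ (n + 1), ∃ u, tv u = T ∧ sv u = S)
    (hψ : ∀ (b : Bool → Fin m → Bool) (a : Bool → Fin K → Bool),
      evB (Vr.ev x0 b a) ψ ↔ SemG n x (tv (b false)) (sv (b false)) (tv (b true)) (sv (b true))
        (dec (a false)) (dec (a true))) :
    Orc ψ x0 ↔ M.Accepts x (2 ^ n) := by
  have hp : (2 : ℕ) ^ (n + 1) = 2 * 2 ^ n := by ring
  have hpos : 0 < 2 ^ n := by positivity
  rw [← tabl_iff hN x]
  constructor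
  · rintro ⟨A, hA⟩
    choose! nm hnt hns using hsur
    have hA' : ∀ b : Bool → Fin m → Bool, SemG n x (tv (b false)) (sv (b false)) (tv (b true))
        (sv (b true)) (dec (A (b false))) (dec (A (b true))) := fun b => (hψ b _).1 (hA b)
    have h2 : ∀ T S T' S', T < 2 ^ n → S < 2 ^ (n + 1) → T' < 2 ^ n → S' < 2 ^ (n + 1) →
        SemG n x T S T' S' (dec (A (nm T S))) (dec (A (nm T' S'))) := by
      intro T S T' S' h1 h2 h3 h4
      have := hA' (fun t => cond t (nm T' S') (nm T S))
      simp only [cond_true, cond_false] at this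
      rwa [hnt T h1 S h2, hns T h1 S h2, hnt T' h3 S' h4, hns T' h3 S' h4] at this
    refine ⟨fun T S => dec (A (nm T S)), ?_, ?_, ?_, ?_, ?_, ?_, ?_, ?_, ?_⟩
    · intro T hT S hS
      exact (h2 T S T S hT hS hT hS).uni
    · intro T hT S hS
      exact (h2 T S T (S + 1) hT (by omega) hT hS).hor rfl rfl
    · intro T hT S hS
      exact (h2 T S (T + 1) S (by omega) hS hT hS).ver rfl rfl
    · intro T hT
      exact (h2 T 0 T 0 hT (by omega) hT (by omega)).lft rfl
    · intro T hT
      exact (h2 T (2 ^ (n + 1) - 1) T 0 hT (by omega) hT (by omega)).rgt rfl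
    · exact (h2 0 (2 ^ n) 0 0 hpos (by omega) hpos (by omega)).hed rfl rfl
    · intro i
      have hi := i.2
      exact (h2 0 (2 ^ n + (i : ℕ)) 0 0 hpos (by omega) hpos (by omega)).inp i rfl rfl
    · intro S hS hi
      exact (h2 0 S 0 0 hpos hS hpos (by omega)).blk rfl hi
    · intro S hS
      exact (h2 (2 ^ n - 1) S 0 0 (by omega) hS hpos (by omega)).acc rfl
  · rintro ⟨c, hc⟩
    refine ⟨fun u => Function.surjInv hdec (c (tv u) (sv u)), fun b => ?_⟩
    refine (hψ b _).2 ?_
    have hd : ∀ y, dec (Function.surjInv hdec y) = y := Function.surjInv_eq hdec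
    have ht1 := ht (b false)
    have hs1 := hs (b false)
    have ht' := ht (b true)
    have hs' := hs (b true)
    constructor
    · rw [hd]; exact hc.uni _ ht1 _ hs1
    · intro h1 h2
      rw [hd, hd, h1, h2]
      exact hc.hor _ ht1 _ (by omega)
    · intro h1 h2
      rw [hd, hd, h1, h2]
      exact hc.ver _ (by omega) _ hs1
    · intro h1
      rw [hd, h1]
      exact hc.lft _ ht1
    · intro h1
      rw [hd, h1]
      exact hc.rgt _ ht1
    · intro h1 h2
      rw [hd, h1, h2]
      exact hc.hed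
    · intro h1 h2
      rw [hd, h1]
      exact hc.blk _ hs1 h2
    · intro h1
      rw [hd, h1]
      exact hc.acc _ hs1
    · intro i h1 h2
      rw [hd, h1, h2]
      exact hc.inp i

namespace U

/-! ### Semantics of uniform formulas -/

section

variable (x : List Bool) (L k : ℕ) (e : Vr 0 (L + 2) (k + 1) → Bool)

/-- truth of a uniform formula -/
def evU (f : UFm) (p : List ℕ) : Prop := evB e (f.fm x L k p)

lemma evU_lb (t : Bool) (j : Bd) (v : Bool) (p : List ℕ) :
    evU x L k e (.lb t j v) p ↔ e (.b t (clamp (L + 1) (j.ev p))) = v := Iff.rfl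

lemma evU_la (t : Bool) (j : Bd) (v : Bool) (p : List ℕ) :
    evU x L k e (.la t j v) p ↔ e (.a t (clamp k (j.ev p))) = v := Iff.rfl

lemma evU_and (f g : UFm) (p : List ℕ) :
    evU x L k e (.and f g) p ↔ evU x L k e f p ∧ evU x L k e g p := Iff.rfl

lemma evU_or (f g : UFm) (p : List ℕ) :
    evU x L k e (.or f g) p ↔ evU x L k e f p ∨ evU x L k e g p := Iff.rfl

lemma evU_all (b : Bd) (f : UFm) (p : List ℕ) :
    evU x L k e (.all b f) p ↔ ∀ i < b.ev p, evU x L k e f (i :: p) := by
  unfold evU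
  simp only [UFm.fm]
  rw [evB_bAnd]
  simp only [List.forall_mem_map, List.mem_range]

lemma evU_any (b : Bd) (f : UFm) (p : List ℕ) :
    evU x L k e (.any b f) p ↔ ∃ i < b.ev p, evU x L k e f (i :: p) := by
  unfold evU
  simp only [UFm.fm]
  rw [evB_bOr]
  simp only [List.mem_map, List.mem_range, exists_exists_and_eq_and]

lemma evU_bind (b : Bd) (f : UFm) (p : List ℕ) :
    evU x L k e (.bind b f) p ↔ evU x L k e f (b.ev p :: p) := Iff.rfl

lemma evU_ite (c : Cnd) (f g : UFm) (p : List ℕ) :
    evU x L k e (.ite c f g) p ↔ if c.ev x p then evU x L k e f p else evU x L k e g p := by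
  unfold evU
  simp only [UFm.fm]
  split_ifs <;> rfl

/-- negation -/
def uNeg : UFm → UFm
  | .lb t j v => .lb t j (!v)
  | .la t j v => .la t j (!v)
  | .and f g => .or (uNeg f) (uNeg g)
  | .or f g => .and (uNeg f) (uNeg g)
  | .all b f => .any b (uNeg f)
  | .any b f => .all b (uNeg f)
  | .bind b f => .bind b (uNeg f)
  | .ite c f g => .ite c (uNeg f) (uNeg g)

lemma evU_neg (f : UFm) : ∀ p : List ℕ, evU x L k e (uNeg f) p ↔ ¬ evU x L k e f p := by
  induction f with
  | lb t j v =>
    intro p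
    simp only [uNeg, evU_lb]
    cases v <;> cases e (.b t (clamp (L + 1) (j.ev p))) <;> simp
  | la t j v =>
    intro p
    simp only [uNeg, evU_la]
    cases v <;> cases e (.a t (clamp k (j.ev p))) <;> simp
  | and f g hf hg => intro p; simp only [uNeg, evU_and, evU_or, hf, hg]; tauto
  | or f g hf hg => intro p; simp only [uNeg, evU_and, evU_or, hf, hg]; tauto
  | all b f hf => intro p; simp only [uNeg, evU_all, evU_any, hf]; push Not; rfl
  | any b f hf => intro p; simp only [uNeg, evU_all, evU_any, hf]; push Not; rfl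
  | bind b f hf => intro p; simp only [uNeg, evU_bind, hf]
  | ite c f g hf hg => intro p; simp only [uNeg, evU_ite, hf, hg]; split_ifs <;> rfl

/-- implication -/
def uImp (f g : UFm) : UFm := .or (uNeg f) g

lemma evU_imp (f g : UFm) (p : List ℕ) :
    evU x L k e (uImp f g) p ↔ (evU x L k e f p → evU x L k e g p) := by
  simp only [uImp, evU_or, evU_neg]; tauto

/-- formulas without counters, in the answer bits -/
def uOf : BF (Bool × Fin (k + 1)) → UFm
  | .lit ((t, c), v) => .la t (.const c) v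
  | .and f g => .and (uOf f) (uOf g)
  | .or f g => .or (uOf f) (uOf g)

lemma evU_of (f : BF (Bool × Fin (k + 1))) (p : List ℕ) :
    evU x L k e (uOf k f) p ↔ evB (fun tc => e (.a tc.1 tc.2)) f := by
  induction f with
  | lit u =>
    obtain ⟨⟨t, c⟩, v⟩ := u
    simp only [uOf, evU_la, evB_lit, Bd.ev]
    have : clamp k (c : ℕ) = c := by
      unfold clamp
      rw [dif_pos c.2]
    rw [this]
  | and f g hf hg => simp only [uOf, evU_and, evB_and, hf, hg]
  | or f g hf hg => simp only [uOf, evU_or, evB_or, hf, hg]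

/-! ### Number formulas; the environment is `[n, N]` -/

/-- equality of bits `j` -/
def uIff (j : Bd) : UFm :=
  .or (.and (.lb false j true) (.lb true j true)) (.and (.lb false j false) (.lb true j false))

lemma evU_iff (j : Bd) (p : List ℕ) : evU x L k e (uIff j) p ↔
    e (.b false (clamp (L + 1) (j.ev p))) = e (.b true (clamp (L + 1) (j.ev p))) := by
  simp only [uIff, evU_or, evU_and, evU_lb]
  cases e (.b false (clamp (L + 1) (j.ev p))) <;> cases e (.b true (clamp (L + 1) (j.ev p))) <;>
    simp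

/-- equality of the blocks `off, ..., off + m - 1`; inside, the position is `off' + var 0` -/
def uEq (m off' : Bd) : UFm := .all m (uIff (.add off' (.var 0)))

/-- successor of the blocks; `off', m'` are the terms under one counter and `off''` under two -/
def uSuc (m off' m' off'' : Bd) : UFm :=
  .any m (.and (.lb false (.add off' (.var 0)) false) (.and (.lb true (.add off' (.var 0)) true)
    (.all m' (.ite (.lt (.var 0) (.var 1))
      (.and (.lb false (.add off'' (.var 0)) true) (.lb true (.add off'' (.var 0)) false))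
      (.ite (.lt (.var 1) (.var 0)) (uIff (.add off'' (.var 0)))
        (.or (.lb false (.const 0) true) (.lb false (.const 0) false)))))))

/-- the digits of a block of a name -/
def dg (t : Bool) (o : ℕ) : ℕ → Bool := fun j => e (.b t (clamp (L + 1) (o + j)))

lemma evU_eq (m off' : Bd) (p : List ℕ) (o : ℕ) (ho : ∀ i, off'.ev (i :: p) = o) :
    evU x L k e (uEq m off') p ↔ bvN (m.ev p) (dg L k e false o) = bvN (m.ev p) (dg L k e true o) := by
  rw [uEq, evU_all, bvN_inj]
  refine forall₂_congr fun i hi => ?_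
  rw [evU_iff]
  simp only [Bd.ev, ho, List.getD_cons_zero, dg]

lemma evU_suc (m off' m' off'' : Bd) (p : List ℕ) (o : ℕ) (ho : ∀ i, off'.ev (i :: p) = o)
    (hm : ∀ i, m'.ev (i :: p) = m.ev p) (ho' : ∀ i j, off''.ev (i :: j :: p) = o) :
    evU x L k e (uSuc m off' m' off'') p ↔
      bvN (m.ev p) (dg L k e true o) = bvN (m.ev p) (dg L k e false o) + 1 := by
  rw [uSuc, evU_any, bvN_succ]
  refine exists_congr fun j => and_congr_right fun hj => ?_
  rw [evU_and, evU_and, evU_lb, evU_lb, evU_all, hm]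
  simp only [Bd.ev, ho, List.getD_cons_zero, dg]
  refine and_congr_right fun h1 => and_congr_right fun h2 => ?_
  refine forall₂_congr fun i hi => ?_
  rw [evU_ite, evU_ite, evU_and, evU_lb, evU_lb, evU_iff, evU_or, evU_lb, evU_lb]
  simp only [Cnd.ev, Bd.ev, ho', List.getD_cons_zero, List.getD_cons_succ, decide_eq_true_eq]
  rcases lt_trichotomy i j with h | h | h
  · rw [if_pos h]
    exact ⟨fun h3 => ⟨fun _ => h3, fun h4 => absurd h4 (by omega)⟩, fun h3 => h3.1 h⟩
  · rw [if_neg (by omega), if_neg (by omega)]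
    constructor
    · intro _; exact ⟨fun h4 => absurd h4 (by omega), fun h4 => absurd h4 (by omega)⟩
    · intro _
      cases e (.b false (clamp (L + 1) 0)) <;> simp
  · rw [if_neg (by omega), if_pos h]
    exact ⟨fun h3 => ⟨fun h4 => absurd h4 (by omega), fun _ => h3⟩, fun h3 => h3.2 h⟩

/-- a block of the first name has the digits given by the condition `c` on the counter -/
def uDig (m off' : Bd) (c : Cnd) : UFm :=
  .all m (.ite c (.lb false (.add off' (.var 0)) true) (.lb false (.add off' (.var 0)) false))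

lemma evU_dig (m off' : Bd) (c : Cnd) (p : List ℕ) (o s : ℕ) (ho : ∀ i, off'.ev (i :: p) = o)
    (hs : s < 2 ^ m.ev p) (hc : ∀ i < m.ev p, c.ev x (i :: p) = s.testBit i) :
    evU x L k e (uDig m off' c) p ↔ bvN (m.ev p) (dg L k e false o) = s := by
  rw [uDig, evU_all, bvN_eq_iff hs]
  refine forall₂_congr fun i hi => ?_
  rw [evU_ite, evU_lb, evU_lb, hc i hi]
  simp only [Bd.ev, ho, List.getD_cons_zero, dg]
  cases s.testBit i <;> simp

end

end U

end Vale.Agent.P027.N
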