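import Vale.Agent.P027.H833.Uni

set_option linter.all false

/-! The uniform formula of a machine (module U3). -/

namespace Vale.Agent.P027.N.U

/-- powers -/
def bdPow (b : Bd) : ℕ → Bd
  | 0 => .const 1
  | m + 1 => .mul (bdPow b m) b

lemma bdPow_ev (b : Bd) (p : List ℕ) : ∀ m, (bdPow b m).ev p = (b.ev p) ^ m
  | 0 => rfl
  | m + 1 => by simp only [bdPow, Bd.ev, bdPow_ev b p m, pow_succ]

/-- the false condition -/
def cF : Cnd := .lt (.const 0) (.const 0)

/-- the true condition -/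
def cT : Cnd := .lt (.const 0) (.const 1)

/-- position `2 ^ n + var 0`; the environment is `[i, n, N]` -/
def uPos : UFm :=
  .all (.add (.var 1) (.const 1)) (.ite (.lt (.var 0) (.var 2))
    (.ite (.tb (.var 1) (.var 0)) (.lb false (.add (.var 2) (.var 0)) true)
      (.lb false (.add (.var 2) (.var 0)) false))
    (.lb false (.add (.var 2) (.var 0)) true))

section

variable (x : List Bool) (L k : ℕ) (e : Vr 0 (L + 2) (k + 1) → Bool) (n N : ℕ)

lemma evU_pos (i : ℕ) (hi : i < 2 ^ n) :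
    evU x L k e uPos [i, n, N] ↔ bvN (n + 1) (dg L k e false n) = 2 ^ n + i := by
  have hp : (2 : ℕ) ^ (n + 1) = 2 * 2 ^ n := by ring
  rw [uPos, evU_all, bvN_eq_iff (by omega)]
  simp only [Bd.ev, List.getD_cons_zero, List.getD_cons_succ]
  refine forall₂_congr fun j hj => ?_
  rw [evU_ite, evU_ite, evU_lb, evU_lb]
  simp only [Cnd.ev, Bd.ev, List.getD_cons_zero, List.getD_cons_succ, decide_eq_true_eq, dg]
  rcases Nat.lt_or_ge j n with h | h
  · rw [if_pos h, Nat.testBit_two_pow_add_gt h]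
    cases i.testBit j <;> simp
  · have : j = n := by omega
    subst this
    rw [if_neg (by omega), Nat.testBit_two_pow_add_eq, Nat.testBit_lt_two_pow hi]
    simp

lemma evU_T0 : evU x L k e (uDig (.var 0) (.const 0) cF) [n, N] ↔
    bvN n (dg L k e false 0) = 0 :=
  evU_dig x L k e _ _ _ _ 0 0 (fun _ => rfl) (by simp) (by intro i hi; simp [cF, Cnd.ev])

lemma evU_T0' (i : ℕ) : evU x L k e (uDig (.var 1) (.const 0) cF) [i, n, N] ↔
    bvN n (dg L k e false 0) = 0 :=
  evU_dig x L k e _ _ _ _ 0 0 (fun _ => rfl) (by simp) (by intro i hi; simp [cF, Cnd.ev])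

lemma evU_Tm : evU x L k e (uDig (.var 0) (.const 0) cT) [n, N] ↔
    bvN n (dg L k e false 0) = 2 ^ n - 1 := by
  have hpos : 0 < 2 ^ n := by positivity
  refine evU_dig x L k e _ _ _ _ 0 _ (fun _ => rfl) ?_ ?_
  · simp only [Bd.ev, List.getD_cons_zero]; omega
  · intro i hi
    simp only [Bd.ev, List.getD_cons_zero] at hi
    rw [Nat.testBit_two_pow_sub_one]
    simp [cT, Cnd.ev, Bd.ev, hi]

lemma evU_S0 : evU x L k e (uDig (.add (.var 0) (.const 1)) (.var 1) cF) [n, N] ↔
    bvN (n + 1) (dg L k e false n) = 0 :=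
  evU_dig x L k e _ _ _ _ n 0 (fun _ => rfl) (by simp) (by intro i hi; simp [cF, Cnd.ev])

lemma evU_Sm : evU x L k e (uDig (.add (.var 0) (.const 1)) (.var 1) cT) [n, N] ↔
    bvN (n + 1) (dg L k e false n) = 2 ^ (n + 1) - 1 := by
  have hpos : 0 < 2 ^ (n + 1) := by positivity
  refine evU_dig x L k e _ _ _ _ n _ (fun _ => rfl) ?_ ?_
  · simp only [Bd.ev, List.getD_cons_zero]; omega
  · intro i hi
    simp only [Bd.ev, List.getD_cons_zero] at hi
    rw [Nat.testBit_two_pow_sub_one]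
    simp [cT, Cnd.ev, Bd.ev, hi]

lemma evU_Sn : evU x L k e (uDig (.add (.var 0) (.const 1)) (.var 1)
    (.lt (.var 1) (.add (.var 0) (.const 1)))) [n, N] ↔
    bvN (n + 1) (dg L k e false n) = 2 ^ n := by
  have hp : (2 : ℕ) ^ (n + 1) = 2 * 2 ^ n := by ring
  have hpos : 0 < 2 ^ n := by positivity
  refine evU_dig x L k e _ _ _ _ n _ (fun _ => rfl) ?_ ?_
  · simp only [Bd.ev, List.getD_cons_zero]; omega
  · intro i hi
    simp only [Bd.ev, List.getD_cons_zero] at hi
    rw [Nat.testBit_two_pow]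
    simp only [Cnd.ev, Bd.ev, List.getD_cons_zero, List.getD_cons_succ, decide_eq_decide]
    omega

lemma evU_eqT : evU x L k e (uEq (.var 0) (.const 0)) [n, N] ↔
    bvN n (dg L k e false 0) = bvN n (dg L k e true 0) :=
  evU_eq x L k e _ _ _ 0 (fun _ => rfl)

lemma evU_eqS : evU x L k e (uEq (.add (.var 0) (.const 1)) (.var 1)) [n, N] ↔
    bvN (n + 1) (dg L k e false n) = bvN (n + 1) (dg L k e true n) :=
  evU_eq x L k e _ _ _ n (fun _ => rfl)

lemma evU_sucT : evU x L k e (uSuc (.var 0) (.const 0) (.var 1) (.const 0)) [n, N] ↔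
    bvN n (dg L k e true 0) = bvN n (dg L k e false 0) + 1 :=
  evU_suc x L k e _ _ _ _ _ 0 (fun _ => rfl) (fun _ => rfl) (fun _ _ => rfl)

lemma evU_sucS : evU x L k e (uSuc (.add (.var 0) (.const 1)) (.var 1)
    (.add (.var 1) (.const 1)) (.var 2)) [n, N] ↔
    bvN (n + 1) (dg L k e true n) = bvN (n + 1) (dg L k e false n) + 1 :=
  evU_suc x L k e _ _ _ _ _ n (fun _ => rfl) (fun _ => rfl) (fun _ _ => rfl)

end

section

variable {M : NTM} {K : ℕ} (dec : (Fin (K + 1) → Bool) → Ct M)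

/-- formula of a relation between contents -/
noncomputable def uR (R : Ct M → Ct M → Prop) : UFm := uOf K (rF dec R)

/-- the constraints; the environment is `[n, N]` -/
noncomputable def uBody : UFm :=
  .and (uR dec fun c _ => vU c)
  (.and (uImp (.and (uEq (.var 0) (.const 0))
      (uSuc (.add (.var 0) (.const 1)) (.var 1) (.add (.var 1) (.const 1)) (.var 2))) (uR dec vH))
  (.and (uImp (.and (uSuc (.var 0) (.const 0) (.var 1) (.const 0))
      (uEq (.add (.var 0) (.const 1)) (.var 1))) (uR dec vV))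
  (.and (uImp (uDig (.add (.var 0) (.const 1)) (.var 1) cF) (uR dec fun c _ => c.2.1 ≠ .r))
  (.and (uImp (uDig (.add (.var 0) (.const 1)) (.var 1) cT) (uR dec fun c _ => c.2.1 ≠ .l))
  (.and (uImp (.and (uDig (.var 0) (.const 0) cF) (uDig (.add (.var 0) (.const 1)) (.var 1)
      (.lt (.var 1) (.add (.var 0) (.const 1)))))
      (uR dec fun c _ => c.2.1 = .h ∧ c.2.2.1 = M.start))
  (.and (uImp (.and (uDig (.var 0) (.const 0) cF) (.all (.var 1) (uNeg uPos)))
      (uR dec fun c _ => c.1 = M.blank))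
  (.and (uImp (uDig (.var 0) (.const 0) cT) (uR dec fun c _ => c.2.2.1 = M.acc))
    (.all (.var 1) (.ite (.bit (.var 0))
      (uImp (.and (uDig (.var 1) (.const 0) cF) uPos) (uR dec fun c _ => c.1 = M.enc true))
      (uImp (.and (uDig (.var 1) (.const 0) cF) uPos) (uR dec fun c _ => c.1 = M.enc false)))))))))))

lemma evU_R (x : List Bool) (L : ℕ) (x0 : Fin 0 → Bool) (b : Bool → Fin (L + 2) → Bool)
    (a : Bool → Fin (K + 1) → Bool) (R : Ct M → Ct M → Prop) (p : List ℕ) :
    evU x L K (Vr.ev x0 b a) (uR dec R) p ↔ R (dec (a false)) (dec (a true)) := by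
  unfold uR
  rw [evU_of, evB_rF]
  rfl

/-- the time of a name -/
def tU (L n : ℕ) (u : Fin (L + 2) → Bool) : ℕ := bvN n (fun j => u (clamp (L + 1) (0 + j)))

/-- the position of a name -/
def sU (L n : ℕ) (u : Fin (L + 2) → Bool) : ℕ := bvN (n + 1) (fun j => u (clamp (L + 1) (n + j)))

lemma evU_body (x : List Bool) (n L : ℕ) (hN : x.length ≤ 2 ^ n) (x0 : Fin 0 → Bool)
    (b : Bool → Fin (L + 2) → Bool) (a : Bool → Fin (K + 1) → Bool) :
    evU x L K (Vr.ev x0 b a) (uBody dec) [n, x.length] ↔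
      SemG n (fun i : Fin x.length => x.get i) (tU L n (b false)) (sU L n (b false))
        (tU L n (b true)) (sU L n (b true)) (dec (a false)) (dec (a true)) := by
  unfold uBody
  simp only [evU_and, evU_imp, evU_R, evU_T0, evU_Tm, evU_S0, evU_Sm, evU_Sn, evU_eqT, evU_eqS,
    evU_sucT, evU_sucS]
  rw [evU_all, evU_all]
  simp only [Bd.ev, List.getD_cons_zero, List.getD_cons_succ]
  have hT : ∀ t, bvN n (dg L K (Vr.ev x0 b a) t 0) = tU L n (b t) := fun t => rfl
  have hS : ∀ t, bvN (n + 1) (dg L K (Vr.ev x0 b a) t n) = sU L n (b t) := fun t => rfl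
  simp only [hT, hS]
  have hB : (∀ i < x.length, evU x L K (Vr.ev x0 b a) (uNeg uPos) [i, n, x.length]) ↔
      ∀ i : Fin x.length, sU L n (b false) ≠ 2 ^ n + (i : ℕ) := by
    constructor
    · intro h i
      have h1 := h i i.2
      rw [evU_neg, evU_pos x L K _ n _ i (by have := i.2; omega)] at h1
      exact h1
    · intro h i hi
      rw [evU_neg, evU_pos x L K _ n _ i (by omega)]
      exact h ⟨i, hi⟩
  rw [hB]
  have hI : (∀ i < x.length, evU x L K (Vr.ev x0 b a) (.ite (.bit (.var 0))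
      (uImp (.and (uDig (.var 1) (.const 0) cF) uPos) (uR dec fun c _ => c.1 = M.enc true))
      (uImp (.and (uDig (.var 1) (.const 0) cF) uPos) (uR dec fun c _ => c.1 = M.enc false)))
      [i, n, x.length]) ↔
      ∀ i : Fin x.length, tU L n (b false) = 0 → sU L n (b false) = 2 ^ n + (i : ℕ) →
        (dec (a false)).1 = M.enc (x.get i) := by
    have key : ∀ i (hi : i < x.length), evU x L K (Vr.ev x0 b a) (.ite (.bit (.var 0))
      (uImp (.and (uDig (.var 1) (.const 0) cF) uPos) (uR dec fun c _ => c.1 = M.enc true))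
      (uImp (.and (uDig (.var 1) (.const 0) cF) uPos) (uR dec fun c _ => c.1 = M.enc false)))
      [i, n, x.length] ↔ (tU L n (b false) = 0 → sU L n (b false) = 2 ^ n + i →
        (dec (a false)).1 = M.enc (x.get ⟨i, hi⟩)) := by
      intro i hi
      rw [evU_ite, evU_imp, evU_imp, evU_and, evU_R, evU_R, evU_T0',
        evU_pos x L K _ n _ i (by omega), hT, hS]
      simp only [Cnd.ev, Bd.ev, List.getD_cons_zero]
      rw [List.getD_eq_getElem _ _ hi]
      simp only [List.get_eq_getElem]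
      cases x[i] <;> simp
    constructor
    · intro h i
      exact (key i i.2).1 (h i i.2)
    · intro h i hi
      exact (key i hi).2 (h ⟨i, hi⟩)
  rw [hI]
  constructor
  · rintro ⟨h1, h2, h3, h4, h5, h6, h7, h8, h9⟩
    exact ⟨h1, fun p q => h2 ⟨p.symm, q⟩, fun p q => h3 ⟨p, q.symm⟩, h4, h5,
      fun p q => h6 ⟨p, q⟩, fun p q => h7 ⟨p, q⟩, h8, h9⟩
  · rintro ⟨h1, h2, h3, h4, h5, h6, h7, h8, h9⟩
    exact ⟨h1, fun p => h2 p.1.symm p.2, fun p => h3 p.1 p.2.symm, h4, h5,
      fun p => h6 p.1 p.2, fun p => h7 p.1 p.2, h8, h9⟩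

end

lemma names_sur (n L : ℕ) (hL : 2 * n ≤ L) (T : ℕ) (hT : T < 2 ^ n) (S : ℕ)
    (hS : S < 2 ^ (n + 1)) : ∃ u, tU L n u = T ∧ sU L n u = S := by
  refine ⟨fun i => if (i : ℕ) < n then T.testBit i else S.testBit (i - n), ?_, ?_⟩
  · unfold tU
    rw [bvN_eq_iff hT]
    intro j hj
    have h1 : (clamp (L + 1) (0 + j) : ℕ) = j := by
      unfold clamp
      rw [dif_pos (by omega)]
      simp
    simp only [h1, hj, if_true]
  · unfold sU
    rw [bvN_eq_iff hS]
    intro j hj
    have h1 : (clamp (L + 1) (n + j) : ℕ) = n + j := by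
      unfold clamp
      rw [dif_pos (by omega)]
    simp only [h1]
    rw [if_neg (by omega)]
    congr 1
    omega

/-- module U3: machines as uniform oracle problems -/
theorem uni_tab (M : NTM) (kk : ℕ) : ∃ (F : UFm) (Lb : Bd) (k : ℕ), ∀ x : List Bool,
    Orc (F.fm x (Lb.ev [x.length]) k [x.length]) (Fin.elim0 : Fin 0 → Bool) ↔
      M.Accepts (fun i : Fin x.length => x.get i) (2 ^ ((x.length + 1) ^ (kk + 1))) := by
  obtain ⟨K, dec, hdec⟩ := exists_dec M
  refine ⟨.bind (bdPow (.add (.var 0) (.const 1)) (kk + 1)) (uBody dec),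
    .mul (.const 2) (bdPow (.add (.var 0) (.const 1)) (kk + 1)), K, fun x => ?_⟩
  set n := (x.length + 1) ^ (kk + 1) with hn
  have hnb : (bdPow (.add (.var 0) (.const 1)) (kk + 1)).ev [x.length] = n := by
    rw [bdPow_ev]; rfl
  have hN : x.length ≤ 2 ^ n := by
    have h1 : x.length + 1 ≤ n := Nat.le_self_pow (by omega) _
    have h2 : n < 2 ^ n := Nat.lt_two_pow_self
    omega
  have hL : (Bd.mul (.const 2) (bdPow (.add (.var 0) (.const 1)) (kk + 1))).ev [x.length] =
      2 * n := by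
    simp only [Bd.ev] at hnb ⊢
    rw [hnb]
  rw [hL]
  refine orc_gen hdec hN (fun i : Fin x.length => x.get i) _ _ (tU (2 * n) n) (sU (2 * n) n)
    (fun u => bvN_lt _ _) (fun u => bvN_lt _ _) (fun T hT S hS => names_sur n _ le_rfl T hT S hS)
    (fun b a => ?_)
  have h1 : (UFm.bind (bdPow (.add (.var 0) (.const 1)) (kk + 1)) (uBody dec)).fm x (2 * n) K
      [x.length] = (uBody dec).fm x (2 * n) K [n, x.length] := by
    rw [UFm.fm, hnb]
  rw [h1]
  exact evU_body dec x n (2 * n) hN _ b a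

end Vale.Agent.P027.N.U
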